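import Vale.Agent.P218EN.Poly

/-! Unweighted Lipschitz estimates for polynomial expressions and for the boundary data. -/

namespace Vale.Agent.P218PB
open Set Complex Vale.Agent.P218EN Vale.Agent.P218EN.WA

section
variable {S : Set ℝ} {n : ℕ} {J J' Z Z' : Fin n → WA} {B : ℝ}

theorem U_mul {x y : WA} {B B' : ℝ} (h : Bd S 1 1 x B) (h' : Bd S 1 1 y B') :
    Bd S 1 1 (x * y) (B * B') :=
  h.mul h' (by simp) (by simp) (by simp) (by simp) (by simp)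

theorem U_alg (S : Set ℝ) (c : ℂ) : Bd S 1 1 (algebraMap ℂ WA c) ‖c‖ := by
  simpa using Bd.of_norm S (algebraMap ℂ WA c)

theorem U_ev (hJ : ∀ i, Bd S 1 1 (J i) 1) (e : Ex n) : Bd S 1 1 (e.ev J) e.bd := by
  induction e with
  | v i => simpa [Ex.bd, Ex.ev] using hJ i
  | c k => simpa [Ex.bd, Ex.ev] using U_alg S (k : ℂ)
  | add a b ha hb => simpa only [Ex.bd, Ex.ev, Nat.cast_add] using ha.add hb
  | mul a b ha hb => simpa only [Ex.bd, Ex.ev, Nat.cast_mul] using U_mul ha hb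
  | neg a ha => exact ha.neg

theorem U_dv (hJ : ∀ i, Bd S 1 1 (J i) 1) (hJ' : ∀ i, Bd S 1 1 (J' i) 1)
    (hZ : ∀ i, Bd S 1 1 (Z i) B) (e : Ex n) : Bd S 1 1 (e.dv J J' Z) (e.bd' * B) := by
  induction e with
  | v i => simpa [Ex.bd', Ex.dv] using hZ i
  | c k => simpa [Ex.bd', Ex.dv] using Bd.zero S 1 1
  | add a b ha hb => simpa only [Ex.bd', Ex.dv, Nat.cast_add, add_mul] using ha.add hb
  | mul a b ha hb =>
    refine ((U_mul ha (U_ev hJ b)).add (U_mul (U_ev hJ' a) hb)).mono (le_of_eq ?_)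
    simp only [Ex.bd', Nat.cast_add, Nat.cast_mul]; ring
  | neg a ha => exact ha.neg

theorem U_ev_sub (hJ : ∀ i, Bd S 1 1 (J i) 1) (hJ' : ∀ i, Bd S 1 1 (J' i) 1)
    (h : ∀ i, Bd S 1 1 (J i - J' i) B) (e : Ex n) : Bd S 1 1 (e.ev J - e.ev J') (e.bd' * B) := by
  rw [Ex.ev_sub_ev]; exact U_dv hJ hJ' h e

/-- constant in the Lipschitz estimate of the derivative -/
def bd2 : Ex n → ℕ
  | .v _ => 1
  | .c _ => 0
  | .add a b => bd2 a + bd2 b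
  | .mul a b => bd2 a * b.bd + a.bd' * b.bd' + (a.bd' * b.bd' + a.bd * bd2 b)
  | .neg a => bd2 a

theorem U_dv_sub (hJ : ∀ i, Bd S 1 1 (J i) 1) (hJ' : ∀ i, Bd S 1 1 (J' i) 1)
    (hZ : ∀ i, Bd S 1 1 (Z i) 1) (hZ' : ∀ i, Bd S 1 1 (Z' i) 1)
    (h : ∀ i, Bd S 1 1 (J i - J' i) B) (h' : ∀ i, Bd S 1 1 (Z i - Z' i) B) (e : Ex n) :
    Bd S 1 1 (e.dv J J Z - e.dv J' J' Z') (bd2 e * B) := by
  induction e with
  | v i => simpa [bd2, Ex.dv] using h' i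
  | c k => simpa [bd2, Ex.dv] using Bd.zero S 1 1
  | add a b ha hb =>
    have := ha.add hb
    simp only [bd2, Ex.dv, Nat.cast_add, add_mul]
    convert this using 1; ring
  | mul a b ha hb =>
    have := ((U_mul ha (U_ev hJ b)).add (U_mul (U_dv hJ' hJ' hZ' a) (U_ev_sub hJ hJ' h b))).add
      ((U_mul (U_ev_sub hJ hJ' h a) (U_dv hJ hJ hZ b)).add (U_mul (U_ev hJ' a) hb))
    simp only [bd2, Ex.dv, Nat.cast_add, Nat.cast_mul]
    convert this using 1 <;> ring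
  | neg a ha =>
    have := ha.neg
    simp only [bd2, Ex.dv]
    convert this using 1; ring

end

/-- two bounded numbers which are close -/
def Cl (x y : ℂ) (M B : ℝ) : Prop := ‖x‖ ≤ M ∧ ‖y‖ ≤ M ∧ ‖x - y‖ ≤ B

namespace Cl
variable {x y x' y' : ℂ} {M B M' B' : ℝ}

theorem mono (h : Cl x y M B) (hM : M ≤ M') (hB : B ≤ B') : Cl x y M' B' :=
  ⟨h.1.trans hM, h.2.1.trans hM, h.2.2.trans hB⟩

theorem const (c : ℂ) : Cl c c ‖c‖ 0 := ⟨le_rfl, le_rfl, by simp⟩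

theorem add (h : Cl x y M B) (h' : Cl x' y' M' B') : Cl (x + x') (y + y') (M + M') (B + B') :=
  ⟨(norm_add_le _ _).trans (add_le_add h.1 h'.1), (norm_add_le _ _).trans (add_le_add h.2.1 h'.2.1),
    by rw [add_sub_add_comm]; exact (norm_add_le _ _).trans (add_le_add h.2.2 h'.2.2)⟩

theorem sub (h : Cl x y M B) (h' : Cl x' y' M' B') : Cl (x - x') (y - y') (M + M') (B + B') :=
  ⟨(norm_sub_le _ _).trans (add_le_add h.1 h'.1), (norm_sub_le _ _).trans (add_le_add h.2.1 h'.2.1),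
    by rw [sub_sub_sub_comm]; exact (norm_sub_le _ _).trans (add_le_add h.2.2 h'.2.2)⟩

theorem mul (h : Cl x y M B) (h' : Cl x' y' M' B') :
    Cl (x * x') (y * y') (M * M') (B * M' + M * B') := by
  have M0 := (norm_nonneg _).trans h.1
  have B0 := (norm_nonneg _).trans h.2.2
  refine ⟨?_, ?_, ?_⟩
  · rw [norm_mul]; exact mul_le_mul h.1 h'.1 (norm_nonneg _) M0
  · rw [norm_mul]; exact mul_le_mul h.2.1 h'.2.1 (norm_nonneg _) M0
  · rw [show x * x' - y * y' = (x - y) * x' + y * (x' - y') by ring]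
    refine (norm_add_le _ _).trans ?_
    rw [norm_mul, norm_mul]
    exact add_le_add (mul_le_mul h.2.2 h'.1 (norm_nonneg _) B0)
      (mul_le_mul h.2.1 h'.2.2 (norm_nonneg _) M0)

theorem sq (h : Cl x y M B) : Cl (x ^ 2) (y ^ 2) (M * M) (B * M + M * B) := by
  simpa only [pow_two] using h.mul h

theorem inv {c : ℝ} (hc : 0 < c) (hx : c ≤ ‖x‖) (hy : c ≤ ‖y‖) (h : ‖x - y‖ ≤ B) :
    Cl x⁻¹ y⁻¹ c⁻¹ (B * c⁻¹ * c⁻¹) := by
  have h1 : ‖x⁻¹‖ ≤ c⁻¹ := by rw [norm_inv]; exact inv_anti₀ hc hx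
  have h2 : ‖y⁻¹‖ ≤ c⁻¹ := by rw [norm_inv]; exact inv_anti₀ hc hy
  have B0 := (norm_nonneg _).trans h
  refine ⟨h1, h2, ?_⟩
  rw [inv_sub_inv' (norm_pos_iff.1 (hc.trans_le hx)) (norm_pos_iff.1 (hc.trans_le hy)), norm_mul,
    norm_mul, norm_sub_rev, mul_comm ‖x⁻¹‖]
  gcongr

theorem one_sub_ge {z : ℂ} {r : ℝ} (h : ‖z‖ ≤ r) : 1 - r ≤ ‖1 - z‖ := by
  have := norm_sub_norm_le (1 : ℂ) z
  rw [norm_one] at this
  linarith

theorem one_add_ge {z : ℂ} {r : ℝ} (h : ‖z‖ ≤ r) : 1 - r ≤ ‖1 + z‖ := by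
  simpa using one_sub_ge (z := -z) (by simpa using h)

end Cl

/-- `L2` is bounded and Lipschitz near `(0, 0, 1)` -/
theorem cl_L2 {A A' ε ε' m m' : ℂ} {B : ℝ} (hA : Cl A A' (1 / 1000) B) (he : Cl ε ε' (1 / 100) B)
    (hm : ‖m - 1‖ ≤ 1 / 20) (hm' : ‖m' - 1‖ ≤ 1 / 20) (h : ‖m - m'‖ ≤ B) :
    Cl (L2 A ε m) (L2 A' ε' m') 2 (20 * B) := by
  have B0 := (norm_nonneg _).trans h
  have up : ∀ {z : ℂ}, ‖z - 1‖ ≤ 1 / 20 → ‖z‖ ≤ 21 / 20 ∧ 19 / 20 ≤ ‖z‖ := fun {z} hz => by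
    have h1 := norm_le_norm_sub_add z 1
    have h2 := Cl.one_add_ge hz
    rw [norm_one] at h1
    rw [add_sub_cancel] at h2
    constructor <;> linarith
  have cm : Cl m m' (21 / 20) B := ⟨(up hm).1, (up hm').1, h⟩
  have c1 : Cl (1 : ℂ) 1 1 0 := by simpa using Cl.const 1
  have c2 : Cl (2 : ℂ) 2 2 0 := by simpa using Cl.const 2
  have ch : Cl (2⁻¹ : ℂ) 2⁻¹ (1 / 2) 0 := by simpa using Cl.const 2⁻¹
  have cem : Cl (ε * m) (ε' * m') (11 / 1000) (11 / 10 * B) :=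
    (he.mul cm).mono (by norm_num) (by linarith)
  have cd : Cl (m * (1 - ε * m)) (m' * (1 - ε' * m')) 2 (9 / 4 * B) :=
    (cm.mul (c1.sub cem)).mono (by norm_num) (by linarith)
  have lo : ∀ {z e : ℂ}, 19 / 20 ≤ ‖z‖ → ‖e‖ ≤ 11 / 1000 → 9 / 10 ≤ ‖z * (1 - e)‖ :=
    fun {z e} hz he => by
      rw [norm_mul]
      nlinarith [Cl.one_sub_ge he]
  have ci : Cl (m * (1 - ε * m))⁻¹ (m' * (1 - ε' * m'))⁻¹ (10 / 9) (3 * B) :=
    (Cl.inv (by norm_num) (lo (up hm).2 cem.1) (lo (up hm').2 cem.2.1) cd.2.2).mono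
      (by norm_num) (by linarith)
  have cAi : Cl (A * (m * (1 - ε * m))⁻¹) (A' * (m' * (1 - ε' * m'))⁻¹) (1 / 500) (6 / 5 * B) :=
    (hA.mul ci).mono (by norm_num) (by linarith)
  have cP : Cl ((1 - 2 * (ε * m)) ^ 2 * (1 + A * (m * (1 - ε * m))⁻¹ * 2⁻¹) ^ 2)
      ((1 - 2 * (ε' * m')) ^ 2 * (1 + A' * (m' * (1 - ε' * m'))⁻¹ * 2⁻¹) ^ 2) (11 / 10) (6 * B) :=
    ((c1.sub (c2.mul cem)).sq.mul (c1.add (cAi.mul ch)).sq).mono (by norm_num) (by linarith)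
  have cQ := cP.mul cAi
  have := (cP.mul ci).mul (Cl.inv (c := 99 / 100) (by norm_num)
    ((by norm_num : (99 / 100 : ℝ) ≤ _).trans (Cl.one_sub_ge cQ.1))
    ((by norm_num : (99 / 100 : ℝ) ≤ _).trans (Cl.one_sub_ge cQ.2.1)) (c1.sub cQ).2.2)
  simp only [L2, div_eq_mul_inv, mul_assoc (2 : ℂ)]
  exact this.mono (by norm_num) (by linarith)

theorem norm_mean_le {g : ℝ → ℂ} {M : ℝ} (h : ∀ θ, ‖g θ‖ ≤ M) :
    ‖(2 * Real.pi : ℂ)⁻¹ * ∫ θ in (0 : ℝ)..2 * Real.pi, g θ‖ ≤ M := by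
  have hp := Real.pi_pos
  have h1 := intervalIntegral.norm_integral_le_of_norm_le_const (a := 0) (b := 2 * Real.pi)
    fun θ _ => h θ
  rw [sub_zero, abs_of_pos (by positivity)] at h1
  rw [norm_mul, norm_inv, norm_mul, Complex.norm_two, norm_real, Real.norm_of_nonneg hp.le,
    inv_mul_le_iff₀ (by positivity)]
  linarith

theorem mean_sub {g g' : ℝ → ℂ} (hg : Continuous g) (hg' : Continuous g') :
    ((2 * Real.pi : ℂ)⁻¹ * ∫ θ in (0 : ℝ)..2 * Real.pi, g θ) -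
      (2 * Real.pi : ℂ)⁻¹ * ∫ θ in (0 : ℝ)..2 * Real.pi, g' θ =
      (2 * Real.pi : ℂ)⁻¹ * ∫ θ in (0 : ℝ)..2 * Real.pi, (g θ - g' θ) := by
  rw [intervalIntegral.integral_sub (hg.intervalIntegrable _ _) (hg'.intervalIntegrable _ _),
    mul_sub]

theorem mean_one : (2 * Real.pi : ℂ)⁻¹ * ∫ _ in (0 : ℝ)..2 * Real.pi, (1 : ℂ) = 1 := by
  have : (Real.pi : ℂ) ≠ 0 := by exact_mod_cast Real.pi_ne_zero
  simp only [intervalIntegral.integral_const, sub_zero, real_smul, mul_one]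
  push_cast
  field_simp

theorem cl_area {h h' ε ε' : ℂ} {B : ℝ} (hh : Cl h h' (1 / 100) B) (he : Cl ε ε' (1 / 100) B) :
    (1 + ε * (1 + h) ^ 2 ≠ 0) ∧ ‖(1 + h) ^ 2 / (1 + ε * (1 + h) ^ 2) - 1‖ ≤ 1 / 20 ∧
      ‖(1 + h) ^ 2 / (1 + ε * (1 + h) ^ 2) - (1 + h') ^ 2 / (1 + ε' * (1 + h') ^ 2)‖ ≤ 4 * B := by
  have B0 := (norm_nonneg _).trans hh.2.2
  have c1 : Cl (1 : ℂ) 1 1 0 := by simpa using Cl.const 1
  have c2 := (c1.add hh).sq
  have c3 := he.mul c2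
  have l1 := (by norm_num : (98 / 100 : ℝ) ≤ _).trans (Cl.one_add_ge c3.1)
  have l2 := (by norm_num : (98 / 100 : ℝ) ≤ _).trans (Cl.one_add_ge c3.2.1)
  have h0 : 1 + ε * (1 + h) ^ 2 ≠ 0 := norm_pos_iff.1 (by linarith)
  refine ⟨h0, ?_, ?_⟩
  · rw [div_sub_one h0, norm_div, div_le_iff₀ (by linarith),
      show (1 + h) ^ 2 - (1 + ε * (1 + h) ^ 2) = h * (1 + (1 + h)) - ε * (1 + h) ^ 2 by ring]
    linarith [((hh.mul (c1.add (c1.add hh))).sub c3).1]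
  · have := (c2.mul (Cl.inv (by norm_num) l1 l2 (c1.add c3).2.2)).2.2
    simp only [div_eq_mul_inv]
    linarith

/-- the normalised area is close to `1` and Lipschitz -/
theorem amean_lip {b b' B : ℝ} {α : ℂ} {η η' : WA}
    (hh : ∀ θ, Cl (η.ev b θ) (η'.ev b' θ) (1 / 100) B) (he : Cl (ef α b) (ef α b') (1 / 100) B) :
    ‖amean b α η - 1‖ ≤ 1 / 20 ∧ ‖amean b' α η' - 1‖ ≤ 1 / 20 ∧
      ‖amean b α η - amean b' α η'‖ ≤ 4 * B := by
  have sy : ∀ {x y : ℂ} {M B : ℝ}, Cl x y M B → Cl y x M B := fun h =>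
    ⟨h.2.1, h.1, by rw [norm_sub_rev]; exact h.2.2⟩
  have c : ∀ (x : WA) (w : ℝ), Continuous fun θ => x.ev w θ := fun x w =>
    x.continuous_ev.comp (continuous_const.prodMk continuous_id)
  have c1 : Continuous fun θ => (1 + η.ev b θ) ^ 2 / (1 + ef α b * (1 + η.ev b θ) ^ 2) :=
    ((continuous_const.add (c η b)).pow 2).div (continuous_const.add (continuous_const.mul
      ((continuous_const.add (c η b)).pow 2))) fun θ => (cl_area (hh θ) he).1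
  have c2 : Continuous fun θ => (1 + η'.ev b' θ) ^ 2 / (1 + ef α b' * (1 + η'.ev b' θ) ^ 2) :=
    ((continuous_const.add (c η' b')).pow 2).div (continuous_const.add (continuous_const.mul
      ((continuous_const.add (c η' b')).pow 2))) fun θ => (cl_area (sy (hh θ)) (sy he)).1
  refine ⟨?_, ?_, ?_⟩
  · have := mean_sub c1 (continuous_const (y := 1))
    rw [mean_one] at this
    rw [amean, this]
    exact norm_mean_le fun θ => (cl_area (hh θ) he).2.1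
  · have := mean_sub c2 (continuous_const (y := 1))
    rw [mean_one] at this
    rw [amean, this]
    exact norm_mean_le fun θ => (cl_area (sy (hh θ)) (sy he)).2.1
  · rw [amean, amean, mean_sub c1 c2]
    exact norm_mean_le fun θ => (cl_area (hh θ) he).2.2

end Vale.Agent.P218PB
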