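import Vale.Agent.P218PB.Pull
import Vale.Agent.P218PB.Lip

/-! The pull-back of a solution solves the problem with the other cut up to `O(τ)`. -/

namespace Vale.Agent.P218PB
open Set Complex Vale.Agent.P218EN Vale.Agent.P218EN.WA

/-- the boundary operator, variables `η, t, p, ε, Λ² / 2` -/
def exB : Ex 5 :=
  (1 + .v 0) ^ 2 * (1 + .v 0 - .v 2) ^ 2 -
    2 * .v 4 * (1 + .v 3 * (1 + .v 0) ^ 2) ^ 2 * ((1 + .v 0) ^ 2 + .v 1 ^ 2)

/-- variables of `exB` -/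
noncomputable def vB (b : ℝ) (α : ℂ) (J : Fin 6 → WA) : Fin 5 → WA :=
  vD (ef α b) (L2 (Af α b) (ef α b) (amean b α (J 0)) / 2) J

theorem BB_eq (b : ℝ) (α : ℂ) (J : Fin 6 → WA) : BB b α J = exB.ev (vB b α J) := by
  have : ∀ l : ℂ, 1 + algebraMap ℂ WA (l - 1) = 2 * algebraMap ℂ WA (l / 2) := fun l => by
    rw [← map_ofNat (algebraMap ℂ WA) 2, ← map_mul, map_sub, map_one, mul_div_cancel₀ _ two_ne_zero]
    ring
  simp only [BB, pB, this, exB, Ex.ev_add, Ex.ev_sub, Ex.ev_mul, Ex.ev_pow, Ex.ev_v, Ex.ev_1,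
    Ex.ev_2]
  rfl

/-- `√A` times the `θ`-derivative of the boundary operator -/
noncomputable def BB1 (b : ℝ) (α : ℂ) (J : Fin 6 → WA) : WA :=
  exB.dv (vB b α J) (vB b α J) (zD (Complex.sqrt (Af α b)) J)

theorem hasD_alg (S : Set ℝ) (t : ℝ → ℂ) (c : ℂ) : HasD S t (algebraMap ℂ WA c) 0 := by
  rw [Algebra.algebraMap_eq_smul_one]
  have := (HasD.sc S t 1).smul c
  rw [smul_zero] at this
  exact this

theorem hasD_BB {a b : ℝ} {α : ℂ} {J : Fin 6 → WA} (hab : a ≤ b) (h : Jet a b (Af α) J) :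
    HasD {b} (fun w => Complex.sqrt (Af α w)) (BB b α J) (BB1 b α J) := by
  rw [BB_eq]
  have hb := right_mem_Icc.2 hab
  refine Ex.hasD_ev (fun i => ?_) exB
  fin_cases i
  · rintro k w rfl
    simp [vB, vD, zD, h.t1 k w hb, mul_assoc]
  · rintro k w rfl
    simp [vB, vD, zD, h.t2 k w hb, mul_assoc]
  · rintro k w rfl
    exact h.t5 k w hb
  · exact hasD_alg _ _ _
  · exact hasD_alg _ _ _

theorem comp_alg (φ : C(ℝ, ℝ)) (c : ℂ) : comp φ (algebraMap ℂ WA c) = algebraMap ℂ WA c :=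
  ev_inj fun w θ => by rw [ev_comp, ← evA_apply, ← evA_apply, AlgHom.commutes, AlgHom.commutes]

/-- the constant in the defects -/
noncomputable def KP : ℝ := (2 + Ex.exN.bd' + 40 * exB.bd' + 40 * bd2 exB) * Mchi

theorem KP_nonneg : 0 ≤ KP := by
  have := one_le_Mchi
  unfold KP; positivity

/-- the smallness assumptions on the coefficients -/
structure Sm (a b : ℝ) (α : ℂ) : Prop where
  one : 1 ≤ a
  coef : ∃ A' ε, Coef a b (Af α) A' ε
  eps : ∀ w ∈ Icc a b, ‖ef α w‖ ≤ 1 / 100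

theorem norm_sqrt_le {z : ℂ} (h : ‖z‖ ≤ 1 / 1000) : ‖Complex.sqrt z‖ ≤ 1 := by
  nlinarith [norm_csqrt_sq z, norm_nonneg (Complex.sqrt z)]

theorem inv_lip {u w : ℝ} (hu : 1 ≤ u) (hw : 1 ≤ w) :
    ‖(u : ℂ)⁻¹ - (w : ℂ)⁻¹‖ ≤ |u - w| ∧ ‖(w : ℂ)⁻¹‖ ≤ 1 := by
  have := Cl.inv (x := (u : ℂ)) (y := (w : ℂ)) one_pos
    (by rwa [norm_real, Real.norm_of_nonneg (by linarith)])
    (by rwa [norm_real, Real.norm_of_nonneg (by linarith)])
    (B := |u - w|) (by rw [← ofReal_sub, norm_real, Real.norm_eq_abs])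
  simpa using And.intro this.2.2 this.2.1

theorem ef_eq (α : ℂ) {w : ℝ} (hw : 1 ≤ w) : ef α w = 8⁻¹ * (w : ℂ)⁻¹ - α / 8 := by
  have : (w : ℂ) ≠ 0 := ofReal_ne_zero.2 (by linarith)
  rw [ef]; field_simp

namespace Cut
variable {a b W τ w : ℝ} {α : ℂ} {J : Fin 6 → WA}

theorem t0 (C : Cut a b W τ) : 0 ≤ Mchi * |τ| := (abs_nonneg _).trans C.tau_le

theorem coefvar (C : Cut a b W τ) {c : ℝ → ℂ} {t : ℝ} (ht : 0 ≤ t) (hc : ContinuousOn c (Icc a b))
    (h1 : ∀ w ∈ Icc a b, ‖c w‖ ≤ 1) (h2 : ∀ w ∈ Icc a W, ‖c (psi W τ w) - c w‖ ≤ t) :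
    Bd (Icc a W) 1 1 (sc (mkB a W c)) 1 ∧
      Bd (Icc a W) 1 1 (comp (phi a W τ) (sc (mkB a (W + τ) c))) 1 ∧
      Bd (Icc a W) 1 1 (sc (mkB a W c) - comp (phi a W τ) (sc (mkB a (W + τ) c))) t := by
  have e1 := fun w hw => mkB_of_mem (hc.mono C.sub1) (w := w) hw
  have e2 := fun w hw => mkB_of_mem (hc.mono C.sub2) (C.maps (x := w) hw)
  refine ⟨Bd.sc zero_le_one fun w hw => ?_, Bd.of_mode0 zero_le_one (fun w hw => ?_)
    fun k hk w _ => by simp [co_sc, hk], Bd.of_mode0 ht (fun w hw => ?_)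
    fun k hk w _ => by simp [co_sc, hk]⟩
  · simpa [e1 w hw] using h1 w (C.sub1 hw)
  · simpa [co_sc, phi_of_mem τ hw, e2 w hw] using h1 _ (C.sub2 (C.maps hw))
  · simpa [co_sc, phi_of_mem τ hw, e1 w hw, e2 w hw, norm_sub_rev] using h2 w hw

theorem A_lip (C : Cut a b W τ) (S : Sm a b α) (hw : w ∈ Icc a W) :
    ‖Af α (psi W τ w) - Af α w‖ ≤ Mchi * |τ| := by
  obtain ⟨A', ε, H⟩ := S.coef
  have := C.slow (K := 1 / 1000) (by norm_num) (by norm_num) H.hA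
    (fun w hw => by linarith [H.A's hw]) hw
  nlinarith [H.As (C.sub1 hw), C.tau_le, abs_nonneg τ]

theorem r_lip (C : Cut a b W τ) (S : Sm a b α) (hw : w ∈ Icc a W) :
    ‖Complex.sqrt (Af α (psi W τ w)) - Complex.sqrt (Af α w)‖ ≤ Mchi * |τ| := by
  obtain ⟨A', ε, H⟩ := S.coef
  nlinarith [C.sqrt_slow H hw, norm_sqrt_le (H.As (C.sub1 hw)), C.tau_le, abs_nonneg τ]

theorem inv_lip' (C : Cut a b W τ) (S : Sm a b α) (hw : w ∈ Icc a W) :
    ‖((psi W τ w : ℝ) : ℂ)⁻¹ - (w : ℂ)⁻¹‖ ≤ Mchi * |τ| :=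
  (inv_lip (S.one.trans (C.maps hw).1) (S.one.trans hw.1)).1.trans
    ((abs_psi_sub W τ w).trans C.tau_le)

theorem x_lip (C : Cut a b W τ) (S : Sm a b α) (hw : w ∈ Icc a W) :
    ‖xf (psi W τ w) - xf w‖ ≤ Mchi * |τ| := by
  rw [xf, xf, mul_inv, mul_inv, ← mul_sub, norm_mul, norm_inv, Complex.norm_two]
  linarith [C.inv_lip' S hw, C.t0]

theorem e_lip (C : Cut a b W τ) (S : Sm a b α) (hw : w ∈ Icc a W) :
    ‖ef α (psi W τ w) - ef α w‖ ≤ Mchi * |τ| := by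
  rw [ef_eq α (S.one.trans (C.maps hw).1), ef_eq α (S.one.trans hw.1), sub_sub_sub_cancel_right,
    ← mul_sub, norm_mul, norm_inv, Complex.norm_ofNat]
  linarith [C.inv_lip' S hw, C.t0]

theorem jets (C : Cut a b W τ) (S : Sm a b α) (hJ : ∀ i, Bd (Icc a (W + τ)) 1 1 (J i) (1 / 100))
    (i : Fin 6) : Bd (Icc a W) 1 1 (pb a W τ (Af α) J i) 1 ∧
      Bd (Icc a W) 1 1 (comp (phi a W τ) (J i)) (1 / 100) ∧
      Bd (Icc a W) 1 1 (pb a W τ (Af α) J i - comp (phi a W τ) (J i)) (Mchi * |τ|) := by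
  obtain ⟨A', ε, H⟩ := S.coef
  have h : ∀ i, Bd (Icc a W) 1 1 (comp (phi a W τ) (J i)) (1 / 100) := fun i =>
    (hJ i).comp _ C.maps'
  exact ⟨(C.bd_pb H Subset.rfl h i).mono (by linarith [C.small]), h i,
    (C.bd_pb_sub H Subset.rfl h i).mono (by linarith [C.t0])⟩

/-- the interior defect -/
theorem bd_EE (C : Cut a b W τ) (S : Sm a b α)
    (hJ : ∀ i, Bd (Icc a (W + τ)) 1 1 (J i) (1 / 100)) :
    Bd (Icc a W) 1 1 (EE a W α (pb a W τ (Af α) J) - comp (phi a W τ) (EE a (W + τ) α J))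
      (KP * |τ|) := by
  obtain ⟨A', ε, H⟩ := S.coef
  have j := C.jets S hJ
  have ne : ∀ w ∈ Icc a b, (w : ℂ) ≠ 0 := fun w hw => ofReal_ne_zero.2 (by linarith [S.one, hw.1])
  have v6 := C.coefvar C.t0 H.cA (fun w hw => by linarith [H.As hw]) fun w hw => C.A_lip S hw
  have v7 := C.coefvar C.t0 (c := xf) ((continuous_const.mul continuous_ofReal).continuousOn.inv₀
    fun w hw => mul_ne_zero two_ne_zero (ne w hw)) (fun w hw => by
      rw [xf, mul_inv, norm_mul, norm_inv, Complex.norm_two]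
      linarith [(inv_lip le_rfl (S.one.trans hw.1)).2]) fun w hw => C.x_lip S hw
  have v8 := C.coefvar C.t0 (c := ef α)
    ((continuous_const.sub (continuous_const.mul continuous_ofReal)).continuousOn.div
      (continuous_const.mul continuous_ofReal).continuousOn
      fun w hw => mul_ne_zero (by norm_num) (ne w hw))
    (fun w hw => by linarith [S.eps w hw]) fun w hw => C.e_lip S hw
  have v9 := C.coefvar C.t0 (c := fun w => Complex.sqrt (Af α w))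
    (fun w hw => (hasDeriv_sqrt H hw).continuousWithinAt) (fun w hw => norm_sqrt_le (H.As hw))
    fun w hw => C.r_lip S hw
  have j2 := fun i => (j i).2.1.mono (by norm_num : (1 / 100 : ℝ) ≤ 1)
  have h1 := U_ev_sub (J := vN a W α (pb a W τ (Af α) J))
    (J' := fun i => compR (phi a W τ) (vN a (W + τ) α J i)) (B := Mchi * |τ|)
    (fun i => by
      fin_cases i
      exacts [(j 0).1, (j 1).1, (j 2).1, (j 3).1, (j 4).1, (j 5).1, v6.1, v7.1, v8.1, v9.1])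
    (fun i => by
      fin_cases i
      exacts [j2 0, j2 1, j2 2, j2 3, j2 4, j2 5, v6.2.1, v7.2.1, v8.2.1, v9.2.1])
    (fun i => by
      fin_cases i
      exacts [(j 0).2.2, (j 1).2.2, (j 2).2.2, (j 3).2.2, (j 4).2.2, (j 5).2.2, v6.2.2, v7.2.2,
        v8.2.2, v9.2.2]) Ex.exN
  rw [← Ex.map_ev] at h1
  refine (((((j 4).2.2.sub (j 3).2.2).add h1)).mono ?_).congr fun k w _ => ?_
  · have := C.t0
    have h2 : (0 : ℝ) ≤ (40 * exB.bd' + 40 * bd2 exB) * (Mchi * |τ|) := by positivity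
    unfold KP
    nlinarith
  · simp [EE, NN, Lm, pb]
    ring

theorem bvars (C : Cut a b W τ) (S : Sm a b α)
    (hJ : ∀ i, Bd (Icc a (W + τ)) 1 1 (J i) (1 / 100)) (i : Fin 5) :
    Bd {W} 1 1 (vB W α (pb a W τ (Af α) J) i) 1 ∧
      Bd {W} 1 1 (compR (phi a W τ) (vB (W + τ) α J i)) 1 ∧
      Bd {W} 1 1 (vB W α (pb a W τ (Af α) J) i - compR (phi a W τ) (vB (W + τ) α J i))
        (40 * (Mchi * |τ|)) := by
  obtain ⟨A', ε, H⟩ := S.coef
  have hW := right_mem_Icc.2 C.aW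
  have hW' := right_mem_Icc.2 C.aW'
  have hs := singleton_subset_iff.2 hW
  have t0 := C.t0
  have j : ∀ i, Bd {W} 1 1 (pb a W τ (Af α) J i) 1 ∧ Bd {W} 1 1 (comp (phi a W τ) (J i)) 1 ∧
      Bd {W} 1 1 (pb a W τ (Af α) J i - comp (phi a W τ) (J i)) (40 * (Mchi * |τ|)) := fun i =>
    ⟨(C.jets S hJ i).1.subset hs, ((C.jets S hJ i).2.1.subset hs).mono (by norm_num),
      ((C.jets S hJ i).2.2.subset hs).mono (by linarith)⟩
  have al : ∀ {x y : ℂ}, Cl x y 1 (40 * (Mchi * |τ|)) → Bd {W} 1 1 (algebraMap ℂ WA x) 1 ∧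
      Bd {W} 1 1 (comp (phi a W τ) (algebraMap ℂ WA y)) 1 ∧
      Bd {W} 1 1 (algebraMap ℂ WA x - comp (phi a W τ) (algebraMap ℂ WA y))
        (40 * (Mchi * |τ|)) := fun h => by
    rw [comp_alg, ← map_sub]
    exact ⟨(U_alg _ _).mono h.1, (U_alg _ _).mono h.2.1, (U_alg _ _).mono h.2.2⟩
  have ce : Cl (ef α W) (ef α (W + τ)) (1 / 100) (Mchi * |τ|) :=
    ⟨S.eps _ (C.sub1 hW), S.eps _ (C.sub2 hW'), by
      simpa only [psi_self, norm_sub_rev] using C.e_lip S hW⟩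
  have cA : Cl (Af α W) (Af α (W + τ)) (1 / 1000) (Mchi * |τ|) :=
    ⟨H.As (C.sub1 hW), H.As (C.sub2 hW'), by
      simpa only [psi_self, norm_sub_rev] using C.A_lip S hW⟩
  have hm := amean_lip (η := pb a W τ (Af α) J 0) (η' := J 0) (fun θ => by
    have e : (pb a W τ (Af α) J 0).ev W θ = (J 0).ev (W + τ) θ := by
      simp [pb, ev_comp, phi_of_mem τ hW, psi_self]
    have := (hJ 0).ev_le hW' zero_le_one le_rfl le_rfl θ
    rw [mul_one] at this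
    rw [e]
    exact ⟨this, this, by simpa using t0⟩) ce
  have cL := (cl_L2 (cA.mono le_rfl (by linarith)) (ce.mono le_rfl (by linarith)) hm.1 hm.2.1
    hm.2.2).mul (by simpa using Cl.const 2⁻¹ : Cl (2⁻¹ : ℂ) 2⁻¹ (1 / 2) 0)
  fin_cases i
  exacts [j 0, j 1, j 3, al (ce.mono (by norm_num) (by linarith)),
    al (cL.mono (by norm_num) (by linarith))]

theorem zvars (C : Cut a b W τ) (S : Sm a b α)
    (hJ : ∀ i, Bd (Icc a (W + τ)) 1 1 (J i) (1 / 100)) (i : Fin 5) :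
    Bd {W} 1 1 (zD (Complex.sqrt (Af α W)) (pb a W τ (Af α) J) i) 1 ∧
      Bd {W} 1 1 (compR (phi a W τ) (zD (Complex.sqrt (Af α (W + τ))) J i)) 1 ∧
      Bd {W} 1 1 (zD (Complex.sqrt (Af α W)) (pb a W τ (Af α) J) i -
        compR (phi a W τ) (zD (Complex.sqrt (Af α (W + τ))) J i)) (40 * (Mchi * |τ|)) := by
  obtain ⟨A', ε, H⟩ := S.coef
  have hW := right_mem_Icc.2 C.aW
  have hW' := right_mem_Icc.2 C.aW'
  have hs := singleton_subset_iff.2 hW
  have t0 := C.t0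
  have r1 := norm_sqrt_le (H.As (C.sub1 hW))
  have r2 := norm_sqrt_le (H.As (C.sub2 hW'))
  have r3 := C.r_lip S hW
  rw [psi_self, norm_sub_rev] at r3
  have j := fun i => (C.jets S hJ i).2.1.subset hs
  have sm : ∀ i, Bd {W} 1 1 (Complex.sqrt (Af α W) • comp (phi a W τ) (J i)) 1 ∧
      Bd {W} 1 1 (Complex.sqrt (Af α (W + τ)) • comp (phi a W τ) (J i)) 1 ∧
      Bd {W} 1 1 (Complex.sqrt (Af α W) • comp (phi a W τ) (J i) -
        Complex.sqrt (Af α (W + τ)) • comp (phi a W τ) (J i)) (40 * (Mchi * |τ|)) := fun i => by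
    rw [← sub_smul]
    exact ⟨((j i).smul _).mono (by linarith), ((j i).smul _).mono (by linarith),
      ((j i).smul _).mono (by linarith)⟩
  have z : Bd {W} 1 1 0 1 ∧ Bd {W} 1 1 (compR (phi a W τ) 0) 1 ∧
      Bd {W} 1 1 (0 - compR (phi a W τ) 0) (40 * (Mchi * |τ|)) := by
    rw [map_zero, sub_zero]
    exact ⟨(Bd.zero _ _ _).mono zero_le_one, (Bd.zero _ _ _).mono zero_le_one,
      (Bd.zero _ _ _).mono (by linarith)⟩
  fin_cases i
  exacts [sm 1, sm 2, ⟨(C.jets S hJ 5).1.subset hs, (j 5).mono (by norm_num),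
    ((C.jets S hJ 5).2.2.subset hs).mono (by linarith)⟩, z, z]

/-- the boundary defect -/
theorem bd_BB (C : Cut a b W τ) (S : Sm a b α)
    (hJ : ∀ i, Bd (Icc a (W + τ)) 1 1 (J i) (1 / 100)) :
    Bd {W} 1 1 (BB W α (pb a W τ (Af α) J) - comp (phi a W τ) (BB (W + τ) α J)) (KP * |τ|) ∧
    Bd {W} 1 1 (BB1 W α (pb a W τ (Af α) J) - comp (phi a W τ) (BB1 (W + τ) α J)) (KP * |τ|) := by
  have v := C.bvars S hJ
  have z := C.zvars S hJ
  have h1 := U_ev_sub (fun i => (v i).1) (fun i => (v i).2.1) (fun i => (v i).2.2) exB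
  have h2 := U_dv_sub (fun i => (v i).1) (fun i => (v i).2.1) (fun i => (z i).1)
    (fun i => (z i).2.1) (fun i => (v i).2.2) (fun i => (z i).2.2) exB
  rw [← Ex.map_ev, ← BB_eq, ← BB_eq] at h1
  rw [← Ex.map_dv] at h2
  have t0 := C.t0
  have p1 : (0 : ℝ) ≤ Ex.exN.bd' * (Mchi * |τ|) := by positivity
  have p2 : (0 : ℝ) ≤ exB.bd' * (Mchi * |τ|) := by positivity
  have p3 : (0 : ℝ) ≤ bd2 exB * (Mchi * |τ|) := by positivity
  exact ⟨h1.mono (by unfold KP; nlinarith), h2.mono (by unfold KP; nlinarith)⟩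

theorem phi_pt (C : Cut a b W τ) (s : ℝ) (k : ℤ) :
    phi a W τ (pt a W s k) = pt a (W + τ) s k := by
  rw [phi_of_mem τ (pt_mem C.aW s k)]
  unfold pt
  split_ifs
  · exact psi_of_le τ (by linarith [C.le])
  · exact psi_self W τ

/-- The pull-back of a solution with the cut `W + τ` is a solution with the cut `W` whose data
differ by `O(τ)` from the pulled back data. -/
theorem sol (C : Cut a b W τ) (S : Sm a b α) {f ξ γ γ1 : WA}
    (hJ : ∀ i, Bd (Icc a (W + τ)) 1 1 (J i) (1 / 100)) (h : Sol a (W + τ) α J f ξ γ)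
    (hγ : HasD {W + τ} (fun w => Complex.sqrt (Af α w)) γ γ1) :
    ∃ f' γ' γ1' : WA, Sol a W α (pb a W τ (Af α) J) f' (comp (phi a W τ) ξ) γ' ∧
      HasD {W} (fun w => Complex.sqrt (Af α w)) γ' γ1' ∧
      Bd (Icc a W) 1 1 (f' - comp (phi a W τ) f) (KP * |τ|) ∧
      Bd {W} 1 1 (γ' - comp (phi a W τ) γ) (KP * |τ|) ∧
      Bd {W} 1 1 (γ1' - comp (phi a W τ) γ1) (KP * |τ|) := by
  obtain ⟨A', ε, H⟩ := S.coef
  have hW := right_mem_Icc.2 C.aW
  have e : phi a W τ W = W + τ := by rw [phi_of_mem τ hW, psi_self]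
  have hj := C.jet H h.jet
  refine ⟨_, _, _, ⟨hj, fun _ _ _ => rfl, fun k => ?_, fun _ _ _ => rfl⟩, hasD_BB C.aW hj,
    (C.bd_EE S hJ).congr fun k w hw => ?_, (C.bd_BB S hJ).1.congr ?_, (C.bd_BB S hJ).2.congr ?_⟩
  · simpa [pb, C.phi_pt] using h.dir k
  · simp [h.eq k _ (C.maps' hw)]
  · rintro k w rfl
    simp [e, h.bc k _ rfl]
  · rintro k w rfl
    simp [e, hγ k _ rfl, hasD_BB C.aW' h.jet k _ rfl, h.bc k _ rfl]

end Cut
end Vale.Agent.P218PB
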