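import Vale.Agent.P218PB.Fam

/-! Joint Lipschitz dependence of `EndFam` on the cut and on the parameters. -/

namespace Vale.Agent.P218PB
open Set Filter Topology Complex Metric Vale.Agent.P218EN Vale.Agent.P218EN.WA Vale.Agent.P218CH

theorem lip_room {E G : Type*} [NormedAddCommGroup E] [NormedSpace ℂ E] [NormedAddCommGroup G]
    [NormedSpace ℂ G] {f : E → G} {U : Set E} {x y : E} {ρ M : ℝ} (hρ : 0 < ρ)
    (hf : DifferentiableOn ℂ f U) (hM : ∀ z ∈ U, ‖f z‖ ≤ M) (hx : ball x ρ ⊆ U) (hy : y ∈ U) :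
    ‖f y - f x‖ ≤ 2 * M / ρ * ‖y - x‖ := by
  rcases lt_or_ge ‖y - x‖ ρ with h | h
  · exact lip_le (hf.mono hx) (fun z hz => hM z (hx hz)) (mem_ball_iff_norm.2 h)
  · have h1 := hM x (hx (mem_ball_self hρ))
    have h2 := hM y hy
    have h3 := (norm_nonneg _).trans h1
    rw [div_mul_eq_mul_div, le_div_iff₀ hρ]
    nlinarith [norm_sub_le (f y) (f x)]

theorem D_near {W K K' : ℝ} (hW : 0 < W) (hK : 0 ≤ K') (h : K < K') :
    ∀ᶠ W' in 𝓝 W, D W K' ⊆ D W' K := by
  have hc : ContinuousAt (fun W' : ℝ => K / W' + 7 / W * |W' - W|) W :=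
    (continuousAt_const.div continuousAt_id hW.ne').add (by fun_prop)
  have hl : K / W + 7 / W * |W - W| < K' / W := by
    rw [sub_self, abs_zero, mul_zero, add_zero]; gcongr
  filter_upwards [hc.eventually (gt_mem_nhds hl)] with W' h1 α hα
  have h2 : ‖1 - α * W - 4‖ < 4 - K' / W := hα
  have h3 := norm_sub_le (1 - α * W - 4) (α * ((W' - W : ℝ) : ℂ))
  rw [norm_mul, norm_real, Real.norm_eq_abs,
    show 1 - α * W - 4 - α * ((W' - W : ℝ) : ℂ) = 1 - α * W' - 4 by push_cast; ring] at h3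
  have h4 := mul_le_mul_of_nonneg_right (norm_lt hW hK hα).le (abs_nonneg (W' - W))
  change ‖1 - α * W' - 4‖ < 4 - K / W'
  linarith

variable {V : Type*} [NormedAddCommGroup V] [NormedSpace ℂ V] {a s r r' R K K' W : ℝ} {RV : Set V}
  {Cf : V × (Fin 6 → WA) → WA} {JS : Fin 6 → WA} {J : ℝ → ℂ × V → Fin 6 → WA}

theorem endFam_norm (I : EndIn a s r R K RV Cf JS) (F : EndFam a s r R K RV Cf JS J)
    (hW : a ^ 2 ≤ W) {q : ℂ × V} (hq : q ∈ D W K ×ˢ ball (0 : V) r) : ‖J W q‖ ≤ ep a * (R / 8) := by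
  have G := col_rg I.toCollar I.hK hW hq.1
  have := norm_clp_le G.le G.ep_pos.le (F.bd W hW q hq) fun w hw => pt_le_ep (G.pt hw)
  rwa [show clp a W (J W q) = J W q from funext (F.clamp W hW q hq)] at this

theorem endFam_norm' (I : EndIn a s r R K RV Cf JS) (F : EndFam a s r R K RV Cf JS J)
    (hW : a ^ 2 ≤ W) {q : ℂ × V} (hq : q ∈ D W K ×ˢ ball (0 : V) r) : ‖J W q‖ ≤ 1 := by
  have G := col_rg I.toCollar I.hK hW hq.1
  nlinarith [endFam_norm I F hW hq, ep_le G, G.ep_pos, I.R_le, I.R_pos]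

theorem flat_of_D {L : ℝ} {α : ℂ} (ha : 1 ≤ a) (hK : 0 ≤ K) (h1 : a ≤ L) (h2 : 14 * L ≤ W)
    (h : α ∈ D W K) : Flat a L α := by
  have W0 : 0 < W := by linarith
  refine ⟨ha, h1, ?_⟩
  have := norm_lt W0 hK h
  rw [lt_div_iff₀ W0] at this
  nlinarith [norm_nonneg α]

/-- **joint Lipschitz estimate**, uniform on the smaller domains -/
theorem endFam_joint (I : EndIn a s r R K RV Cf JS) (F : EndFam a s r R K RV Cf JS J)
    (hW : a ^ 2 ≤ W) (hK : K < K') (hr : r' < r) :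
    ∃ C : ℝ, 0 ≤ C ∧ ∀ᶠ W' in 𝓝 W, a ^ 2 ≤ W' → ∀ q ∈ D W K' ×ˢ ball (0 : V) r',
      ∀ q' ∈ D W' K' ×ˢ ball (0 : V) r',
      (∀ n, Bd (Icc a W) 1 1 (comp (phi a W (W' - W)) (J W' q' n) - J W q n)
        (C * (|W' - W| + ‖q' - q‖))) ∧
      (∀ n, ∀ w ∈ Icc a W, ∀ θ, ‖(J W' q' n).ev (psi W (W' - W) w) θ - (J W q n).ev w θ‖ ≤
        C * (|W' - W| + ‖q' - q‖)) ∧
      ∀ L, a ≤ L → 15 * L ≤ W →
        ‖ab a L q'.1 (J W' q') - ab a L q.1 (J W q)‖ ≤ C * (|W' - W| + ‖q' - q‖) := by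
  have b1 := (col_big I.toCollar).1
  have W0 : 0 < W := by nlinarith
  have K0 : 0 ≤ K := by linarith [I.hK]
  have M1 := one_le_Mchi
  have c0 : 0 ≤ CP * W ^ 3 := mul_nonneg CP_nonneg (by positivity)
  set ρ := min ((K' - K) / 2 / (W + 1) ^ 2) (r - r') with hρ
  have ρ0 : 0 < ρ := lt_min (by have := sub_pos.2 hK; positivity) (sub_pos.2 hr)
  have ρ1 : 0 ≤ 2 * 9 / ρ := by positivity
  refine ⟨5 * (CP * W ^ 3) + Mchi + 2 * 9 / ρ, by positivity, ?_⟩
  have hs : ∀ᶠ W' in 𝓝 W, Mchi * |W' - W| < 1 / 20 :=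
    (show ContinuousAt (fun W' => Mchi * |W' - W|) W by fun_prop).eventually
      (gt_mem_nhds (by simp))
  filter_upwards [hs, D_near W0 (by linarith) (show (K + K') / 2 < K' by linarith)]
    with W' h1 h2 hW' q hq q' hq'
  have t0 := abs_nonneg (W' - W)
  have t1 : |W' - W| ≤ 1 := by nlinarith
  have n0 := norm_nonneg (q' - q)
  have W0' : 0 < W' := by nlinarith
  have rr : ball (0 : V) r' ⊆ ball 0 r := ball_subset_ball hr.le
  have m1 : q.1 ∈ D W K := D_anti W0 hK.le hq.1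
  have m2 : q.1 ∈ D W' K := D_anti W0' (by linarith) (h2 hq.1)
  have m3 : q' ∈ D W' K ×ˢ ball (0 : V) r := ⟨D_anti W0' hK.le hq'.1, rr hq'.2⟩
  have room : ball q ρ ⊆ D W' K ×ˢ ball (0 : V) r := by
    rw [← ball_prod_same]
    refine prod_mono ((ball_subset_ball ((min_le_left _ _).trans ?_)).trans
      (ball_sub_D W0' (h2 hq.1))) (ball_subset_ball' ?_)
    · rw [show (K + K') / 2 - K = (K' - K) / 2 by ring]
      have := sub_pos.2 hK
      gcongr
      linarith [le_abs_self (W' - W)]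
    · linarith [min_le_right ((K' - K) / 2 / (W + 1) ^ 2) (r - r'), mem_ball.1 hq.2]
  have N := endFam_near I F hW hW' h1.le m1 m2 (rr hq.2)
  have l1 := lip_room ρ0 (F.holo W' hW') (M := 9)
    (fun z hz => (endFam_norm' I F hW' hz).trans (by norm_num)) room m3
  have key : ∀ n, Bd (Icc a W) 1 1 (comp (phi a W (W' - W)) (J W' q' n) - J W q n)
      ((5 * (CP * W ^ 3) + Mchi + 2 * 9 / ρ) * (|W' - W| + ‖q' - q‖)) := fun n => by
    have := (Bd.of_norm (Icc a W) (compL (phi a W (W' - W)) (J W' q' n - J W' q n))).add (N.all n)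
    rw [map_sub, compL_apply, compL_apply, sub_add_sub_cancel] at this
    refine this.mono ?_
    have e : ‖comp (phi a W (W' - W)) (J W' q' n) - comp (phi a W (W' - W)) (J W' q n)‖ ≤
        2 * 9 / ρ * ‖q' - q‖ := by
      rw [← compL_apply, ← compL_apply, ← map_sub]
      exact (norm_comp_le _ _).trans ((norm_le_pi_norm (J W' q' - J W' q) n).trans l1)
    nlinarith [mul_nonneg c0 t0, mul_nonneg c0 n0, mul_nonneg ρ1 t0]
  refine ⟨key, fun n w hw θ => ?_, fun L L1 L2 => ?_⟩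
  · have := (key n).ev_le hw zero_le_one le_rfl le_rfl θ
    rwa [mul_one, ev_sub, ev_comp, phi_of_mem _ hw] at this
  · have fl : ∀ z ∈ D W' K ×ˢ ball (0 : V) r, Flat a L z.1 := fun z hz =>
      flat_of_D (by linarith) K0 L1 (by linarith [neg_abs_le (W' - W)]) hz.1
    have l2 := lip_room ρ0 (diff_ab L1 ((isOpen_D W0').prod isOpen_ball) differentiableOn_fst fl
      (F.holo W' hW')) (M := 9) (fun z hz => by
        have k1 := (norm_clp_le' (a := a) (L := L) _).trans (endFam_norm' I F hW' hz)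
        have k2 := (fl z hz).ab_sub_le (J W' z)
        have k3 := norm_le_norm_sub_add (ab a L z.1 (J W' z)) (clp a L (J W' z))
        have k4 : 8 * (‖z.1‖ * L) * (1 + ‖clp a L (J W' z)‖) ≤ 8 * (1 / 2) * 2 := by
          have : 0 ≤ ‖z.1‖ * L := mul_nonneg (norm_nonneg _) (by linarith)
          gcongr
          · exact (fl z hz).small
          · linarith
        linarith) room m3
    have l3 := endFam_ab I F hW hW' h1.le m1 m2 (rr hq.2) L1 (by linarith)
    have l4 := norm_sub_le_norm_sub_add_norm_sub (ab a L q'.1 (J W' q')) (ab a L q.1 (J W' q))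
      (ab a L q.1 (J W q))
    nlinarith [mul_nonneg c0 n0, mul_nonneg ρ1 t0]

end Vale.Agent.P218PB
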