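import Vale.Agent.P218EN.Ode

/-! The change of variable `psi w = w + τ chi (w - W)` which moves the cut `W` to `W + τ`. -/

namespace Vale.Agent.P218PB
open Set Filter Topology Vale.Agent.P218EN
open scoped ContDiff

/-- smooth, `0` on `(-∞, -3/4]`, `1` on `[-1/4, ∞)` -/
noncomputable def chi (t : ℝ) : ℝ := Real.smoothTransition (2 * t + 3 / 2)

theorem contDiff_chi : ContDiff ℝ ∞ chi :=
  Real.smoothTransition.contDiff.comp ((contDiff_const.mul contDiff_id).add contDiff_const)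

theorem chi_zero {t : ℝ} (ht : t ≤ -3 / 4) : chi t = 0 :=
  Real.smoothTransition.zero_of_nonpos (by linarith)

theorem chi_one {t : ℝ} (ht : -1 / 4 ≤ t) : chi t = 1 :=
  Real.smoothTransition.one_of_one_le (by linarith)

theorem chi_nonneg (t : ℝ) : 0 ≤ chi t := Real.smoothTransition.nonneg _
theorem chi_le_one (t : ℝ) : chi t ≤ 1 := Real.smoothTransition.le_one _

theorem contDiff_dchi : ContDiff ℝ ∞ (deriv chi) := (contDiff_infty_iff_deriv.1 contDiff_chi).2

theorem contDiff_ddchi : ContDiff ℝ ∞ (deriv (deriv chi)) :=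
  (contDiff_infty_iff_deriv.1 contDiff_dchi).2

theorem deriv_zero_of {f : ℝ → ℝ} {c d : ℝ} (h0 : ∀ t, t < -3 / 4 → f t = c)
    (h1 : ∀ t, -1 / 4 < t → f t = d) :
    (∀ t, t < -3 / 4 → deriv f t = 0) ∧ ∀ t, -1 / 4 < t → deriv f t = 0 := by
  refine ⟨fun t ht => ?_, fun t ht => ?_⟩
  · have : f =ᶠ[𝓝 t] fun _ => c := (gt_mem_nhds ht).mono h0
    rw [this.deriv_eq, deriv_const]
  · have : f =ᶠ[𝓝 t] fun _ => d := (lt_mem_nhds ht).mono h1
    rw [this.deriv_eq, deriv_const]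

theorem dchi_zero : (∀ t, t < -3 / 4 → deriv chi t = 0) ∧ ∀ t, -1 / 4 < t → deriv chi t = 0 :=
  deriv_zero_of (fun _ ht => chi_zero ht.le) fun _ ht => chi_one ht.le

theorem ddchi_zero : (∀ t, t < -3 / 4 → deriv (deriv chi) t = 0) ∧
    ∀ t, -1 / 4 < t → deriv (deriv chi) t = 0 := deriv_zero_of dchi_zero.1 dchi_zero.2

theorem exists_bound {f : ℝ → ℝ} (hf : Continuous f) (h0 : ∀ t, t < -3 / 4 → f t = 0)
    (h1 : ∀ t, -1 / 4 < t → f t = 0) : ∃ M, 0 ≤ M ∧ ∀ t, |f t| ≤ M := by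
  obtain ⟨M, hM⟩ := (isCompact_Icc (a := (-3 / 4 : ℝ)) (b := -1 / 4)).exists_bound_of_continuousOn
    hf.continuousOn
  refine ⟨max M 0, le_max_right _ _, fun t => ?_⟩
  rcases lt_or_ge t (-3 / 4) with h | h
  · simp [h0 t h]
  rcases lt_or_ge (-1 / 4) t with h' | h'
  · simp [h1 t h']
  exact (hM t ⟨h, h'⟩).trans (le_max_left _ _)

theorem exists_Mchi : ∃ M : ℝ, 1 ≤ M ∧ ∀ t, |deriv chi t| ≤ M ∧ |deriv (deriv chi) t| ≤ M := by
  obtain ⟨M1, h1, h1'⟩ := exists_bound contDiff_dchi.continuous dchi_zero.1 dchi_zero.2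
  obtain ⟨M2, h2, h2'⟩ := exists_bound contDiff_ddchi.continuous ddchi_zero.1 ddchi_zero.2
  exact ⟨1 + M1 + M2, by linarith, fun t => ⟨by linarith [h1' t], by linarith [h2' t]⟩⟩

/-- a bound for the first two derivatives of `chi` -/
noncomputable def Mchi : ℝ := exists_Mchi.choose

theorem one_le_Mchi : 1 ≤ Mchi := exists_Mchi.choose_spec.1
theorem abs_dchi_le (t : ℝ) : |deriv chi t| ≤ Mchi := (exists_Mchi.choose_spec.2 t).1
theorem abs_ddchi_le (t : ℝ) : |deriv (deriv chi) t| ≤ Mchi := (exists_Mchi.choose_spec.2 t).2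

/-- the change of variable -/
noncomputable def psi (W τ : ℝ) : C(ℝ, ℝ) :=
  ⟨fun w => w + τ * chi (w - W), continuous_id.add
    (continuous_const.mul (contDiff_chi.continuous.comp (continuous_id.sub continuous_const)))⟩

/-- its first derivative -/
noncomputable def psi1 (W τ w : ℝ) : ℝ := 1 + τ * deriv chi (w - W)

/-- its second derivative -/
noncomputable def psi2 (W τ w : ℝ) : ℝ := τ * deriv (deriv chi) (w - W)

variable {W τ a w : ℝ}

theorem psi_apply (W τ w : ℝ) : psi W τ w = w + τ * chi (w - W) := rfl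

theorem contDiff_psi (W τ : ℝ) : ContDiff ℝ ∞ (psi W τ) :=
  contDiff_id.add (contDiff_const.mul (contDiff_chi.comp (contDiff_id.sub contDiff_const)))

theorem hasDerivAt_psi (W τ w : ℝ) : HasDerivAt (psi W τ) (psi1 W τ w) w := by
  have h := ((contDiff_chi.differentiable (by simp)) (w - W)).hasDerivAt.comp_sub_const w W
  exact (hasDerivAt_id w).add (h.const_mul τ)

theorem hasDerivAt_psi1 (W τ w : ℝ) : HasDerivAt (psi1 W τ) (psi2 W τ w) w := by
  have h := ((contDiff_dchi.differentiable (by simp)) (w - W)).hasDerivAt.comp_sub_const w W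
  exact (h.const_mul τ).const_add 1

theorem continuous_psi1 (W τ : ℝ) : Continuous (psi1 W τ) :=
  continuous_iff_continuousAt.2 fun w => (hasDerivAt_psi1 W τ w).continuousAt

theorem continuous_psi2 (W τ : ℝ) : Continuous (psi2 W τ) :=
  continuous_const.mul (contDiff_ddchi.continuous.comp (continuous_id.sub continuous_const))

theorem psi_of_le (τ : ℝ) (h : w ≤ W - 3 / 4) : psi W τ w = w := by
  rw [psi_apply, chi_zero (by linarith)]; ring

theorem psi1_of_lt (τ : ℝ) (h : w < W - 3 / 4) : psi1 W τ w = 1 := by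
  rw [psi1, dchi_zero.1 _ (by linarith)]; ring

theorem psi2_of_lt (τ : ℝ) (h : w < W - 3 / 4) : psi2 W τ w = 0 := by
  rw [psi2, ddchi_zero.1 _ (by linarith)]; ring

theorem psi_of_ge (τ : ℝ) (h : W - 1 / 4 ≤ w) : psi W τ w = w + τ := by
  rw [psi_apply, chi_one (by linarith)]; ring

theorem psi1_of_gt (τ : ℝ) (h : W - 1 / 4 < w) : psi1 W τ w = 1 := by
  rw [psi1, dchi_zero.2 _ (by linarith)]; ring

theorem psi2_of_gt (τ : ℝ) (h : W - 1 / 4 < w) : psi2 W τ w = 0 := by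
  rw [psi2, ddchi_zero.2 _ (by linarith)]; ring

theorem psi_self (W τ : ℝ) : psi W τ W = W + τ := psi_of_ge τ (by linarith)
theorem psi1_self (W τ : ℝ) : psi1 W τ W = 1 := psi1_of_gt τ (by linarith)
theorem psi2_self (W τ : ℝ) : psi2 W τ W = 0 := psi2_of_gt τ (by linarith)

theorem abs_psi_sub (W τ w : ℝ) : |psi W τ w - w| ≤ |τ| := by
  rw [psi_apply, add_sub_cancel_left, abs_mul, abs_of_nonneg (chi_nonneg _)]
  exact mul_le_of_le_one_right (abs_nonneg _) (chi_le_one _)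

theorem abs_psi1_sub (W τ w : ℝ) : |psi1 W τ w - 1| ≤ Mchi * |τ| := by
  rw [psi1, add_sub_cancel_left, abs_mul, mul_comm]
  exact mul_le_mul_of_nonneg_right (abs_dchi_le _) (abs_nonneg _)

theorem abs_psi2 (W τ w : ℝ) : |psi2 W τ w| ≤ Mchi * |τ| := by
  rw [psi2, abs_mul, mul_comm]
  exact mul_le_mul_of_nonneg_right (abs_ddchi_le _) (abs_nonneg _)

theorem half_le_psi1 (hτ : Mchi * |τ| ≤ 1 / 2) (W w : ℝ) : 1 / 2 ≤ psi1 W τ w := by
  linarith [(abs_le.1 (abs_psi1_sub W τ w)).1]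

theorem abs_le_half (hτ : Mchi * |τ| ≤ 1 / 2) : |τ| ≤ 1 / 2 := by
  nlinarith [one_le_Mchi, abs_nonneg τ]

theorem strictMono_psi (hτ : Mchi * |τ| ≤ 1 / 2) (W : ℝ) : StrictMono (psi W τ) :=
  strictMono_of_deriv_pos fun w => by
    rw [(hasDerivAt_psi W τ w).deriv]; linarith [half_le_psi1 hτ W w]

theorem image_psi (hτ : Mchi * |τ| ≤ 1 / 2) (ha : a ≤ W - 1) :
    psi W τ '' Icc a W = Icc a (W + τ) := by
  rw [(psi W τ).continuous.continuousOn.image_Icc_of_monotoneOn (by linarith)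
    ((strictMono_psi hτ W).monotone.monotoneOn _), psi_of_le τ (by linarith), psi_self]

theorem mapsTo_psi (hτ : Mchi * |τ| ≤ 1 / 2) (ha : a ≤ W - 1) :
    MapsTo (psi W τ) (Icc a W) (Icc a (W + τ)) := by
  rw [← image_psi hτ ha]; exact mapsTo_image _ _

/-- the clamped change of variable -/
noncomputable def phi (a W τ : ℝ) : C(ℝ, ℝ) := (psi W τ).comp (cl a W)

theorem phi_apply (a W τ w : ℝ) : phi a W τ w = psi W τ (cl a W w) := rfl

theorem phi_of_mem (τ : ℝ) (hw : w ∈ Icc a W) : phi a W τ w = psi W τ w := by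
  rw [phi_apply, cl_of_mem hw]

theorem phi_cl (h : a ≤ W) (τ w : ℝ) : phi a W τ (cl a W w) = phi a W τ w := by
  rw [phi_apply, phi_apply, cl_cl h]

theorem phi_mem (hτ : Mchi * |τ| ≤ 1 / 2) (ha : a ≤ W - 1) (w : ℝ) :
    phi a W τ w ∈ Icc a (W + τ) := mapsTo_psi hτ ha (cl_mem (by linarith) w)

/-- chain rule -/
theorem hasDeriv_comp (hτ : Mchi * |τ| ≤ 1 / 2) (ha : a ≤ W - 1) {y : ℝ → ℂ} {y' : ℂ}
    (hy : HasDerivWithinAt y y' (Icc a (W + τ)) (psi W τ w)) :
    HasDerivWithinAt (fun u => y (psi W τ u)) (psi1 W τ w * y') (Icc a W) w := by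
  have := hy.scomp w (hasDerivAt_psi W τ w).hasDerivWithinAt (mapsTo_psi hτ ha)
  simpa [Function.comp_def] using this

theorem hasDeriv_psi1C (W τ w : ℝ) (s : Set ℝ) :
    HasDerivWithinAt (fun u => (psi1 W τ u : ℂ)) (psi2 W τ w) s w :=
  (hasDerivAt_psi1 W τ w).ofReal_comp.hasDerivWithinAt

end Vale.Agent.P218PB
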