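import Vale.Agent.P218PB.Main
import Vale.Agent.P218CH.AbB

/-! PLIP for the family `EndFam`. -/

namespace Vale.Agent.P218PB
open Set Complex Metric Vale.Agent.P218EN Vale.Agent.P218EN.WA Vale.Agent.P218CH

variable {V : Type*} [NormedAddCommGroup V] [NormedSpace ℂ V] {a s r R K W W' : ℝ} {RV : Set V}
  {Cf : V × (Fin 6 → WA) → WA} {JS : Fin 6 → WA} {α : ℂ} {v : V}

theorem col_big (I : Collar a s r R RV Cf) : 10 ^ 30 ≤ a ∧ 10 ^ 15 ≤ R * √a := by
  have h1 : R ^ 2 ≤ 1 := pow_le_one₀ I.R_pos.le I.R_le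
  have h0 : 0 < a := by
    by_contra h
    nlinarith [I.big, sq_nonneg R]
  refine ⟨by nlinarith [I.big], (abs_le_of_sq_le_sq' ?_ (by have := I.R_pos; positivity)).2⟩
  rw [mul_pow, Real.sq_sqrt h0.le]
  linarith [I.big]

theorem col_le2 (I : Collar a s r R RV Cf) : s ≤ 2 * a := by linarith [I.le', (col_big I).1]

theorem col_rg (I : Collar a s r R RV Cf) (hK : a ≤ K) (hW : a ^ 2 ≤ W) (h : α ∈ D W K) :
    Rg a a W α :=
  Rg.of_disc (col_big I).1 le_rfl (by nlinarith [(col_big I).1]) le_rfl hK (le_of_lt h)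

theorem col_small (I : Collar a s r R RV Cf) (hK : a ≤ K) (hW : a ^ 2 ≤ W) (h : α ∈ D W K) :
    ‖α‖ * s ≤ R * ep a / 100 ∧ R * ep a ≤ 1 / 1000 ∧ 0 < R * ep a := by
  obtain ⟨b1, b2⟩ := col_big I
  have a0 : 0 < a := by linarith
  have W0 : 0 < W := by nlinarith
  have s0 := Real.sqrt_pos.2 a0
  have e0 := ep_pos a0
  have e1 := ep_le (col_rg I hK hW h)
  refine ⟨?_, by nlinarith [I.R_le, I.R_pos], mul_pos I.R_pos e0⟩
  have h1 : ‖α‖ * a ^ 2 ≤ 7 := by
    have := norm_lt W0 (by linarith) h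
    rw [lt_div_iff₀ W0] at this
    nlinarith [norm_nonneg α]
  have h2 : ‖α‖ * s ≤ 14 / a := by
    rw [le_div_iff₀ a0]
    nlinarith [mul_le_mul_of_nonneg_left (col_le2 I) (mul_nonneg (norm_nonneg α) a0.le)]
  refine h2.trans ?_
  rw [ep, div_le_iff₀ a0]
  have e : R * (10 / √a) / 100 * a = R * √a / 10 := by
    field_simp
    rw [Real.sq_sqrt a0.le]
    ring
  rw [e]
  linarith

theorem col_low (I : Collar a s r R RV Cf) (F : Flat a s α) {w : ℝ} (p : Pt a α w)
    (hw : w ∈ Icc a s) : ep a / 120 ≤ dl (Af α) w * om a α w := by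
  have h1 := (F.mul_le hw).trans F.small
  have h2 : 1 / 2 ≤ (1 - α * w).re := by
    rw [sub_re, one_re]
    linarith [re_le_norm (α * w)]
  have h3 : ‖1 - α * w‖ ≤ 3 / 2 := by
    have := norm_sub_le 1 (α * w)
    rw [norm_one] at this
    linarith
  have d1 : 1 / 3 ≤ dl (Af α) w := by
    rw [p.dl_eq, le_div_iff₀ p.n_pos]; linarith
  have t1 : 1 / 4 ≤ a * tau α w := by
    rw [p.tau_eq, ← mul_div_assoc, le_div_iff₀ p.w_pos]
    nlinarith [re_le_norm (1 - α * w), hw.2, col_le2 I, p.a0_pos]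
  have t2 : (1 / 4 : ℝ) ≤ (a * tau α w) ^ (7 / 8 : ℝ) :=
    (Real.self_le_rpow_of_le_one (by norm_num) (by norm_num) (by norm_num)).trans
      (Real.rpow_le_rpow (by norm_num) t1 (by norm_num))
  have e : (√a)⁻¹ = ep a / 10 := by rw [ep]; ring
  have e0 := ep_pos p.a0_pos
  rw [om, e]
  calc ep a / 120 = 1 / 3 * (ep a / 10 * (1 / 4)) := by ring
    _ ≤ _ := by gcongr

/-- the collar source is Lipschitz with a small constant on the ball of radius `R` -/
theorem src_lip' (I : Collar a s r R RV Cf) (hK : a ≤ K) (hW : a ^ 2 ≤ W) (h : α ∈ D W K)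
    (hv : v ∈ ball (0 : V) r) {J J' : Fin 6 → WA}
    (hJ : ∀ i, Bd (Icc a W) (sg a α) (om a α) (J i) R)
    (hJ' : ∀ i, Bd (Icc a W) (sg a α) (om a α) (J' i) R) {B : ℝ}
    (hB : ∀ i, Bd (Icc a W) (sg a α) (om a α) (J' i - J i) B) :
    Bd (Icc a W) (sg a α) (fun w => dl (Af α) w * om a α w)
      (src a s Cf α v J' - src a s Cf α v J) (1 / 10 ^ 9 * B) := by
  have G := col_rg I hK hW h
  obtain ⟨m1, m2, m3⟩ := col_small I hK hW h
  have b1 := (col_big I).1
  have F : Flat a s α := ⟨by linarith, I.le, by linarith⟩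
  have sW : Icc a s ⊆ Icc a W := Icc_subset_Icc_right (by nlinarith [col_le2 I])
  have e0 := G.ep_pos
  have B0 := (hB 0).nonneg
  have cl : ∀ {X : Fin 6 → WA} {ρ : ℝ}, (∀ i, Bd (Icc a W) (sg a α) (om a α) (X i) ρ) →
      ‖clp a s X‖ ≤ ep a * ρ := fun hX =>
    norm_clp_le I.le e0.le (fun i => (hX i).subset sW) fun w hw => pt_le_ep (G.pt (sW hw))
  have nb : ∀ {X : Fin 6 → WA}, (∀ i, Bd (Icc a W) (sg a α) (om a α) (X i) R) →
      ‖ab a s α X‖ ≤ 2 * (R * ep a) := fun {X} hX => by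
    have h1 := cl hX
    have h2 := F.ab_sub_le X
    have h3 := norm_le_norm_sub_add (ab a s α X) (clp a s X)
    have h4 : 8 * (‖α‖ * s) * (1 + ‖clp a s X‖) ≤ 8 * (R * ep a / 100) * 2 := by
      have : 0 ≤ ‖α‖ * s := mul_nonneg (norm_nonneg _) (by linarith [I.le])
      gcongr
      linarith
    linarith
  have sub : ball (ab a s α J) (8 * (R * ep a)) ⊆ ball 0 (10 * (R * ep a)) :=
    ball_subset_ball' (by rw [dist_zero_right]; linarith [nb hJ])
  have h1 := lip_le (f := fun X => Cf (v, X)) (x := ab a s α J) (r := 8 * (R * ep a))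
    (I.holo.comp (by fun_prop) fun X _ => ⟨hv, mem_univ _⟩) (fun X hX => I.bd v hv X (sub hX))
    (z := ab a s α J') (by
      rw [mem_ball_iff_norm]
      linarith [norm_sub_le (ab a s α J') (ab a s α J), nb hJ, nb hJ'])
  have h2 := (F.ab_lip J' J).trans (mul_le_mul_of_nonneg_left (cl (X := J' - J) hB) (by norm_num))
  have e : 2 * (R * ep a / 10 ^ 12) / (8 * (R * ep a)) = 1 / (4 * 10 ^ 12) := by
    have := I.R_pos
    field_simp; ring
  rw [e] at h1
  have h3 : ‖src a s Cf α v J' - src a s Cf α v J‖ ≤ 2 * (1 / (4 * 10 ^ 12) * (5 * (ep a * B))) := by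
    rw [src, src, ← mul_sub]
    exact (norm_mul_le _ _).trans (mul_le_mul F.norm_mu_sq (h1.trans (by gcongr)) (norm_nonneg _)
      zero_le_two)
  refine (((Bd.of_norm (Icc a W) _).mono h3).of_le (t := 120 / ep a) (by positivity)
    fun k w hw c hc hx => ?_).mono (le_of_le_of_eq ?_ rfl)
  · have p := G.pt hw
    have wp : dl (Af α) w * om a α w ≤ wt (sg a α) (fun w => dl (Af α) w * om a α w) k w := by
      unfold wt; split_ifs
      · exact (pt_low p).2.2.2
      · exact le_rfl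
    have d0 := mul_pos p.dl_pos p.om_pos
    rcases le_total w s with hs | hs
    · have : wt 1 1 k w = 1 := by unfold wt; split_ifs <;> rfl
      rw [this, mul_one] at hx
      refine hx.trans ?_
      calc c = 120 / ep a * c * (ep a / 120) := by field_simp
        _ ≤ _ := by gcongr; exact (col_low I F p ⟨hw.1, hs⟩).trans wp
    · have : (src a s Cf α v J' - src a s Cf α v J).co k w = 0 := by
        simp [src, fn, co_sc_mul, I.supp _ _ k w hs]
      rw [this, norm_zero]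
      exact mul_nonneg (by positivity) (d0.le.trans wp)
  · field_simp
    nlinarith

/-- **PLIP** for the family of solutions of the end problem -/
theorem endFam_near {J : ℝ → ℂ × V → Fin 6 → WA} (I : EndIn a s r R K RV Cf JS)
    (F : EndFam a s r R K RV Cf JS J) (hW : a ^ 2 ≤ W) (hW' : a ^ 2 ≤ W')
    (hτ : Mchi * |W' - W| ≤ 1 / 20) (h : α ∈ D W K) (h' : α ∈ D W' K) (hv : v ∈ ball (0 : V) r) :
    Near a a W W' α (J W (α, v)) (J W' (α, v)) := by
  have b1 := (col_big I.toCollar).1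
  have G : Rg a a (max W W') α := by
    rcases le_total W W' with h1 | h1
    · rw [max_eq_right h1]; exact col_rg I.toCollar I.hK hW' h'
    · rw [max_eq_left h1]; exact col_rg I.toCollar I.hK hW h
  obtain ⟨m1, m2, -⟩ := col_small I.toCollar I.hK hW h
  have Fl : Flat a s α := ⟨by linarith, I.le, by linarith⟩
  have R0 := I.R_pos
  have R1 := I.R_le
  refine plip_cut G I.le (by nlinarith [col_le2 I.toCollar]) hτ (c := 1 / 10 ^ 9) (by norm_num) (ρ := R / 8)
    (by linarith) (F := src a s Cf α v) (fun J1 _ h1 B hB => src_lip' I.toCollar I.hK hW h hv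
      (fun i => (F.bd W hW (α, v) ⟨h, hv⟩ i).mono (by linarith))
      (fun i => (h1 i).mono (by linarith)) hB) (fun J1 h1 => ?_) (fun k w hw => ?_)
    (F.sol W hW (α, v) ⟨h, hv⟩) (F.sol W' hW' (α, v) ⟨h', hv⟩)
    (fun i => (F.bd W hW (α, v) ⟨h, hv⟩ i).mono (by linarith)) (F.bd W' hW' (α, v) ⟨h', hv⟩)
    fun k => ?_
  · rw [src, src, ab_eq I.le Fl.prof, ab_eq I.le Fl.prof, clp_congr I.le h1]
  · simp [src, fn, co_sc_mul, I.supp _ _ k w hw]
  · unfold pt
    split_ifs with hk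
    · rfl
    · simp [xi, hi, hk]

/-- the absolute jets on `[a, L]` are Lipschitz in the cut -/
theorem endFam_ab {J : ℝ → ℂ × V → Fin 6 → WA} (I : EndIn a s r R K RV Cf JS)
    (F : EndFam a s r R K RV Cf JS J) (hW : a ^ 2 ≤ W) (hW' : a ^ 2 ≤ W')
    (hτ : Mchi * |W' - W| ≤ 1 / 20) (h : α ∈ D W K) (h' : α ∈ D W' K) (hv : v ∈ ball (0 : V) r)
    {L : ℝ} (h1 : a ≤ L) (h2 : 14 * L ≤ W) :
    ‖ab a L α (J W' (α, v)) - ab a L α (J W (α, v))‖ ≤ 5 * CP * W ^ 3 * |W' - W| := by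
  have b1 := (col_big I.toCollar).1
  have W0 : 0 < W := by linarith
  have N := endFam_near I F hW hW' hτ h h' hv
  have Fl : Flat a L α := ⟨by linarith, h1, by
    have := norm_lt W0 (by linarith [I.hK]) h
    rw [lt_div_iff₀ W0] at this
    nlinarith [norm_nonneg α]⟩
  refine (Fl.ab_lip _ _).trans ?_
  rw [clp_sub, mul_assoc, mul_assoc, ← mul_assoc CP]
  refine mul_le_mul_of_nonneg_left ((pi_norm_le_iff_of_nonneg (N.cls 0).nonneg).2 fun i => ?_)
    (by norm_num)
  exact N.left L h1 (by linarith) i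

end Vale.Agent.P218PB
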