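import Vale.Agent.P218PB.Std
import Vale.Agent.P218EN.Stab

/-! PLIP: the solutions of the end problem are Lipschitz in the cut. -/

namespace Vale.Agent.P218PB
open Set Complex Metric Vale.Agent.P218EN Vale.Agent.P218EN.WA

/-- the constant of PLIP -/
noncomputable def CP : ℝ := 240 * 3000000 * KP

theorem CP_nonneg : 0 ≤ CP := by
  have := KP_nonneg
  unfold CP; positivity

namespace Cut
variable {a0 a b W τ : ℝ} {α : ℂ} {J J' : Fin 6 → WA}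

/-- PLIP in any admissible weights, with general data -/
theorem plip_base (C : Cut a b W τ) (S : Sm a b α) {ε K c m : ℝ} {d σ ω σ' ω' : ℝ → ℝ}
    {ρ : ℤ → ℝ} (H : Base a W α ε d σ ω) (Sy : WSys (Icc a W) ε d σ ω σ' ω')
    (O : GB a W (-2) (Af α) (pt a W (-2)) ρ d σ' ω' K) (hρ : ρ 0 ≤ σ' W)
    (hε : 10000000 * K * ε ≤ 1) (hc : 100 * K * c ≤ 1) (hm : 0 < m)
    (low : ∀ w ∈ Icc a W, m ≤ σ' w ∧ m ≤ ω' w ∧ m ≤ d w * ω' w)
    {f ξ γ γ1 f' ξ' γ' γ1' : WA} {Bf Bξ B0 B1 : ℝ}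
    (h : Sol a W α J f ξ γ) (hγ : HasD {W} (fun w => Complex.sqrt (Af α w)) γ γ1)
    (h' : Sol a (W + τ) α J' f' ξ' γ') (hγ' : HasD {W + τ} (fun w => Complex.sqrt (Af α w)) γ' γ1')
    (hP : ∀ i, Bd (Icc a W) σ ω (J i) 1) (hP' : ∀ i, Bd (Icc a W) σ ω (pb a W τ (Af α) J' i) 1)
    (hJ' : ∀ i, Bd (Icc a (W + τ)) 1 1 (J' i) (1 / 100)) (f0 : 0 ≤ Bf)
    (bf : ∀ B, (∀ i, Bd (Icc a W) σ' ω' (pb a W τ (Af α) J' i - J i) B) →
      Bd (Icc a W) σ' (fun w => d w * ω' w) (comp (phi a W τ) f' - f) (Bf + c * B))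
    (bξ : BdX (pt a W (-2)) ρ (comp (phi a W τ) ξ' - ξ) Bξ)
    (b0 : Bd {W} σ' ω' (comp (phi a W τ) γ' - γ) B0)
    (b1 : Bd {W} σ' ω' (comp (phi a W τ) γ1' - γ1) B1) (i : Fin 6) :
    Bd (Icc a W) σ' ω' (pb a W τ (Af α) J' i - J i)
      (80 * K * (Bf + Bξ + B0 + B1 + 3 * KP / m * |τ|)) := by
  obtain ⟨g, δ, δ1, hs, hd, e1, e2, e3⟩ := C.sol S hJ' h' hγ'
  have hW := right_mem_Icc.2 C.aW
  have lW : ∀ w ∈ ({W} : Set ℝ), m ≤ σ' w ∧ m ≤ ω' w := by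
    rintro w rfl
    exact ⟨(low w hW).1, (low w hW).2.1⟩
  have f1 := bd_low (ω := fun w => d w * ω' w) hm e1 fun w hw => ⟨(low w hw).1, (low w hw).2.2⟩
  have f2 := (bd_low hm e2 lW).add b0
  have f3 := (bd_low hm e3 lW).add b1
  rw [sub_add_sub_cancel] at f2 f3
  refine (H.stab Sy O hρ hε hc hs h hP' hP (Bf := KP * |τ| / m + Bf) (add_nonneg f1.nonneg f0)
    (fun B hB => ?_) bξ f2
    (by simpa only [sub_eq_add_neg] using hd.add hγ.neg) f3 i).mono (le_of_eq (by ring))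
  have f4 := f1.add (bf B hB)
  rwa [sub_add_sub_cancel, ← add_assoc] at f4

/-- PLIP in the standard class: collar source supported in `[a, s]`, the same Dirichlet data and
pins, natural boundary condition -/
theorem plip_std (C : Cut a b W τ) (h : Rg a0 a b α) (hτ : Mchi * |τ| ≤ 1 / 20) {s c : ℝ}
    (hs : s ≤ W - 1) (hc : 100 * 3000000 * c ≤ 1) {f g f' ξ ξ' : WA}
    (s1 : Sol a W α J f ξ 0) (s2 : Sol a (W + τ) α J' f' ξ' 0)
    (hJ : ∀ i, Bd (Icc a W) (sg a0 α) (om a0 α) (J i) 1)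
    (hJ' : ∀ i, Bd (Icc a (W + τ)) (sg a0 α) (om a0 α) (J' i) (1 / 2))
    (hf : WEq (Icc a s) f' g) (hf' : ∀ k, ∀ w ∈ Icc s (W + τ), f'.co k w = 0)
    (hg : ∀ k, ∀ w ∈ Icc s W, g.co k w = 0)
    (lip : ∀ B, (∀ i, Bd (Icc a W) (sg a0 α) (om a0 α) (pb a W τ (Af α) J' i - J i) B) →
      Bd (Icc a W) (sg a0 α) (fun w => dl (Af α) w * om a0 α w) (g - f) (c * B))
    (hξ : ∀ k, ξ'.co k (pt a (W + τ) (-2) k) = ξ.co k (pt a W (-2) k)) (i : Fin 6) :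
    Bd (Icc a W) (sg a0 α) (om a0 α) (pb a W τ (Af α) J' i - J i) (CP * W ^ 3 * |τ|) := by
  have R := h.mono C.aW C.sub1
  have W0 : 0 < W := (R.pt (right_mem_Icc.2 C.aW)).w_pos
  have z : ∀ S t, HasD S t 0 0 := fun S t k w _ => by simp
  have z' : Bd {W} (sg a0 α) (om a0 α) (comp (phi a W τ) 0 - 0) 0 :=
    (Bd.zero _ _ _).congr fun k w _ => by simp
  have hP' : ∀ i, Bd (Icc a W) (sg a0 α) (om a0 α) (pb a W τ (Af α) J' i) 1 := fun i =>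
    (C.ball_std h hτ hJ' i).mono (by norm_num)
  refine (C.plip_base (sm_of_rg h) R.base R.base.sys R.gb (by simp [pt_zero]) R.ep_small hc
    (m := 1 / W ^ 3) (by positivity) (fun w hw => rg_low R hw) (Bf := 0) s1 (z _ _) s2 (z _ _) hJ
    hP' (fun i => (unw h C.sub2 (hJ' i)).mono (by linarith [ep_le h])) le_rfl (fun B hB => ?_)
    (BdX.of_zero fun k => by simp [C.phi_pt, hξ k]) z' z' i).mono (le_of_eq ?_)
  · rw [zero_add]
    refine (lip B hB).congr fun k w hw => ?_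
    rw [co_sub, co_sub, BoundedContinuousFunction.sub_apply, BoundedContinuousFunction.sub_apply,
      C.comp_left hs hf hf' hg k w hw]
  · rw [CP]
    field_simp
    ring

section
variable {B : ℝ} (C : Cut a b W τ) (h : Rg a0 a b α)
  (hJ' : ∀ i, Bd (Icc a (W + τ)) (sg a0 α) (om a0 α) (J' i) 1) {i : Fin 6}
  (hB : Bd (Icc a W) (sg a0 α) (om a0 α) (pb a W τ (Af α) J' i - J i) B)
include C h hB

/-- collar outputs -/
theorem left_norm {L : ℝ} (h1 : a ≤ L) (h2 : L ≤ W - 1) :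
    ‖comp (cl a L) (J' i) - comp (cl a L) (J i)‖ ≤ ep a0 * B := by
  have hs : Icc a L ⊆ Icc a (W - 1) := Icc_subset_Icc_right h2
  have := Bd.norm_comp_cl_le h1 (unw h (Icc_subset_Icc_right (by linarith [C.h1]))
    ((C.left h.coef hB).subset hs)) fun _ _ => ⟨le_rfl, le_rfl⟩
  rwa [← compL_apply, map_sub] at this

include hJ'

/-- `J' ∘ psi - J` -/
theorem comp_std : Bd (Icc a W) 1 1 (comp (phi a W τ) (J' i) - J i)
    (ep a0 * (B + 5 * (Mchi * |τ|))) :=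
  (C.comp_sub h.coef (fun _ _ => ⟨le_rfl, le_rfl⟩) (fun i => unw h C.sub2 (hJ' i))
    (unw h C.sub1 hB)).mono (le_of_eq (by ring))

/-- the jets as functions -/
theorem ev_std {w : ℝ} (hw : w ∈ Icc a W) (θ : ℝ) :
    ‖(J' i).ev (psi W τ w) θ - (J i).ev w θ‖ ≤ ep a0 * (B + 5 * (Mchi * |τ|)) :=
  (C.right_ev h.coef (fun _ _ => ⟨le_rfl, le_rfl⟩) (fun i => unw h C.sub2 (hJ' i))
    (unw h C.sub1 hB) hw θ).trans (le_of_eq (by ring))

/-- boundary jets -/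
theorem right_std : ‖comp (.const ℝ (W + τ)) (J' i) - comp (.const ℝ W) (J i)‖ ≤
    ep a0 * (B + 5 * (Mchi * |τ|)) :=
  (C.right h.coef (fun _ _ => ⟨le_rfl, le_rfl⟩) (fun i => unw h C.sub2 (hJ' i))
    (unw h C.sub1 hB)).trans (le_of_eq (by ring))

end

end Cut

/-- the cuts `W`, `W'` are admissible for the pull-back -/
theorem cut_of {a W W' : ℝ} (ha : a ≤ W - 1) (h : Mchi * |W' - W| ≤ 1 / 20) :
    Cut a (max W W') W (W' - W) :=
  ⟨by linarith, ha, le_max_left _ _, by rw [add_sub_cancel]; exact le_max_right _ _⟩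

/-- the conclusions of PLIP -/
structure Near (a0 a W W' : ℝ) (α : ℂ) (J J' : Fin 6 → WA) : Prop where
  cls : ∀ i, Bd (Icc a W) (sg a0 α) (om a0 α) (pb a W (W' - W) (Af α) J' i - J i)
    (CP * W ^ 3 * |W' - W|)
  left : ∀ L, a ≤ L → L ≤ W - 1 → ∀ i,
    ‖comp (cl a L) (J' i) - comp (cl a L) (J i)‖ ≤ CP * W ^ 3 * |W' - W|
  right : ∀ i,
    ‖comp (.const ℝ W') (J' i) - comp (.const ℝ W) (J i)‖ ≤ (CP * W ^ 3 + Mchi) * |W' - W|
  all : ∀ i, Bd (Icc a W) 1 1 (comp (phi a W (W' - W)) (J' i) - J i)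
    ((CP * W ^ 3 + Mchi) * |W' - W|)
  ev : ∀ i, ∀ w ∈ Icc a W, ∀ θ,
    ‖(J' i).ev (psi W (W' - W) w) θ - (J i).ev w θ‖ ≤ (CP * W ^ 3 + Mchi) * |W' - W|

/-- PLIP for two cuts `W`, `W'` and one collar source `F` which only sees `[a, s]` -/
theorem plip_cut {a0 a s W W' c ρ : ℝ} {α : ℂ} {J J' : Fin 6 → WA} (h : Rg a0 a (max W W') α)
    (has : a ≤ s) (hs : s ≤ W - 1) (hτ : Mchi * |W' - W| ≤ 1 / 20) (hc : 100 * 3000000 * c ≤ 1)
    (hρ : ρ ≤ 1 / 2) {F : (Fin 6 → WA) → WA} {ξ ξ' : WA}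
    (lip : ∀ J1, Clamp a W J1 → (∀ i, Bd (Icc a W) (sg a0 α) (om a0 α) (J1 i) (2 * ρ)) →
      ∀ B, (∀ i, Bd (Icc a W) (sg a0 α) (om a0 α) (J1 i - J i) B) →
      Bd (Icc a W) (sg a0 α) (fun w => dl (Af α) w * om a0 α w) (F J1 - F J) (c * B))
    (loc : ∀ J1, (∀ i, WEq (Icc a s) (J1 i) (J' i)) → F J1 = F J')
    (supp : ∀ k w, s ≤ w → (F J').co k w = 0)
    (s1 : Sol a W α J (F J) ξ 0) (s2 : Sol a W' α J' (F J') ξ' 0)
    (hJ : ∀ i, Bd (Icc a W) (sg a0 α) (om a0 α) (J i) 1)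
    (hJ' : ∀ i, Bd (Icc a W') (sg a0 α) (om a0 α) (J' i) ρ)
    (hξ : ∀ k, ξ'.co k (pt a W' (-2) k) = ξ.co k (pt a W (-2) k)) : Near a0 a W W' α J J' := by
  have C := cut_of (has.trans hs) hτ
  obtain ⟨τ, rfl⟩ : ∃ τ, W' = W + τ := ⟨W' - W, by ring⟩
  rw [add_sub_cancel_left] at C hτ
  have e : F (pb a W τ (Af α) J') = F J' := loc _ fun i k w hw =>
    C.pb_left h.coef J' i k w ⟨hw.1, hw.2.trans hs⟩
  have hB := C.plip_std h hτ hs hc s1 s2 hJ (fun i => (hJ' i).mono hρ) (fun k w _ => rfl)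
    (fun k w hw => supp k w hw.1) (fun k w hw => supp k w hw.1) (by
      rw [← e]
      exact lip _ (fun i => C.pb_cl h.coef J' i) (C.ball_std h hτ hJ')) hξ
  have hJ1 := fun i => (hJ' i).mono (hρ.trans (by norm_num : (1 / 2 : ℝ) ≤ 1))
  have e1 := ep_le h
  have e0 := h.ep_pos
  have B0 := (hB 0).nonneg
  have t0 := C.t0
  have k : ep a0 * (CP * W ^ 3 * |τ| + 5 * (Mchi * |τ|)) ≤ (CP * W ^ 3 + Mchi) * |τ| := by
    nlinarith
  constructor <;> rw [add_sub_cancel_left]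
  exacts [hB, fun L h1 h2 i => (C.left_norm h (hB i) h1 h2).trans (by nlinarith),
    fun i => (C.right_std h hJ1 (hB i)).trans k, fun i => (C.comp_std h hJ1 (hB i)).mono k,
    fun i w hw θ => (C.ev_std h hJ1 (hB i) hw θ).trans k]

end Vale.Agent.P218PB
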