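import Vale.Agent.P218PB.Defect
import Vale.Agent.P218EN.Apr

/-! Lipschitz dependence on the cut, from a stability estimate. -/

namespace Vale.Agent.P218PB
open Set Complex Vale.Agent.P218EN Vale.Agent.P218EN.WA

/-- stability of the end problem in the weights `(σ, ω)` for jets in the set `P` -/
def Stab (a b : ℝ) (α : ℂ) (P : Set (Fin 6 → WA)) (ρ : ℤ → ℝ) (d σ ω : ℝ → ℝ) (C : ℝ) : Prop :=
  ∀ ⦃J J' : Fin 6 → WA⦄ ⦃f f' ξ ξ' γ γ' γ1 γ1' : WA⦄ ⦃Bf Bξ B0 B1 : ℝ⦄, J ∈ P → J' ∈ P →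
    Sol a b α J f ξ γ → Sol a b α J' f' ξ' γ' →
    HasD {b} (fun w => Complex.sqrt (Af α w)) γ γ1 →
    HasD {b} (fun w => Complex.sqrt (Af α w)) γ' γ1' →
    Bd (Icc a b) σ (fun w => d w * ω w) (f - f') Bf → BdX (pt a b (-2)) ρ (ξ - ξ') Bξ →
    Bd {b} σ ω (γ - γ') B0 → Bd {b} σ ω (γ1 - γ1') B1 →
    ∀ i, Bd (Icc a b) σ ω (J i - J' i) (C * (Bf + Bξ + B0 + B1))

theorem bd_low {S : Set ℝ} {σ ω : ℝ → ℝ} {m B : ℝ} {x : WA} (hm : 0 < m) (h : Bd S 1 1 x B)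
    (h1 : ∀ w ∈ S, m ≤ σ w ∧ m ≤ ω w) : Bd S σ ω x (B / m) := by
  rw [div_eq_inv_mul]
  exact h.weaken (inv_pos.2 hm).le (fun w hw => (le_inv_mul_iff₀ hm).2 (by simpa using (h1 w hw).1))
    fun w hw => (le_inv_mul_iff₀ hm).2 (by simpa using (h1 w hw).2)

namespace Cut
variable {a b W τ : ℝ} {α : ℂ} {J J' : Fin 6 → WA} {σ ω d : ℝ → ℝ}

/-- the pull-back of jets in the ball of radius `B` lies in the ball of radius `2 B` -/
theorem ball (C : Cut a b W τ) {A A' : ℝ → ℂ} {ε B : ℝ} (H : Coef a b A A' ε)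
    (hτ : Mchi * |τ| ≤ 1 / 20) (hσ : ∀ w ∈ Icc a W, σ (psi W τ w) ≤ 3 / 2 * σ w)
    (hω : ∀ w ∈ Icc a W, ω (psi W τ w) ≤ 3 / 2 * ω w)
    (h : ∀ i, Bd (Icc a (W + τ)) σ ω (J' i) B) (i : Fin 6) :
    Bd (Icc a W) σ ω (pb a W τ A J' i) (2 * B) :=
  (C.bd_pb H Subset.rfl (fun i => C.bd_comp (by norm_num) hσ hω (h i)) i).mono
    (by nlinarith [(h 0).nonneg])

/-- PLIP, general form: the interior sources may depend on the jets -/
theorem plip (C : Cut a b W τ) (S : Sm a b α) {P : Set (Fin 6 → WA)} {ρ : ℤ → ℝ} {K m c : ℝ}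
    (st : Stab a W α P ρ d σ ω K) (hc : 2 * K * c ≤ 1)
    (cont : ContinuousOn σ (Icc a W) ∧ ContinuousOn ω (Icc a W)) (hm : 0 < m)
    (low : ∀ w ∈ Icc a W, m ≤ σ w ∧ m ≤ ω w ∧ m ≤ d w * ω w)
    {f ξ γ γ1 f' ξ' γ' γ1' : WA} {Bf Bξ B0 B1 : ℝ}
    (h : Sol a W α J f ξ γ) (hγ : HasD {W} (fun w => Complex.sqrt (Af α w)) γ γ1)
    (h' : Sol a (W + τ) α J' f' ξ' γ') (hγ' : HasD {W + τ} (fun w => Complex.sqrt (Af α w)) γ' γ1')
    (hP : J ∈ P) (hP' : pb a W τ (Af α) J' ∈ P)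
    (hJ' : ∀ i, Bd (Icc a (W + τ)) 1 1 (J' i) (1 / 100))
    (bf : ∀ B, (∀ i, Bd (Icc a W) σ ω (pb a W τ (Af α) J' i - J i) B) →
      Bd (Icc a W) σ (fun w => d w * ω w) (comp (phi a W τ) f' - f) (Bf + c * B))
    (bξ : BdX (pt a W (-2)) ρ (comp (phi a W τ) ξ' - ξ) Bξ)
    (b0 : Bd {W} σ ω (comp (phi a W τ) γ' - γ) B0)
    (b1 : Bd {W} σ ω (comp (phi a W τ) γ1' - γ1) B1) (i : Fin 6) :
    Bd (Icc a W) σ ω (pb a W τ (Af α) J' i - J i)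
      (2 * K * (Bf + Bξ + B0 + B1 + 3 * KP / m * |τ|)) := by
  obtain ⟨g, δ, δ1, hs, hd, e1, e2, e3⟩ := C.sol S hJ' h' hγ'
  have hW := right_mem_Icc.2 C.aW
  have lW : ∀ w ∈ ({W} : Set ℝ), m ≤ σ w ∧ m ≤ ω w := by
    rintro w rfl
    exact ⟨(low w hW).1, (low w hW).2.1⟩
  have f1 := bd_low (ω := fun w => d w * ω w) hm e1 fun w hw => ⟨(low w hw).1, (low w hw).2.2⟩
  have f2 := (bd_low hm e2 lW).add b0
  have f3 := (bd_low hm e3 lW).add b1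
  rw [sub_add_sub_cancel] at f2 f3
  refine (absorb C.aW (fun w hw => ⟨hm.trans_le (low w hw).1, hm.trans_le (low w hw).2.1⟩) cont
    (J := fun i => pb a W τ (Af α) J' i - J i)
    (c := K * (Bf + Bξ + B0 + B1 + 3 * KP / m * |τ|)) (fun B hB i => ?_) i).mono
      (le_of_eq (by ring))
  have f4 := f1.add (bf B hB)
  rw [sub_add_sub_cancel] at f4
  refine (st hP' hP hs h hd hγ f4 bξ f2 f3 i).mono ?_
  have := mul_le_mul_of_nonneg_right hc (hB 0).nonneg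
  have e : K * (KP * |τ| / m + (Bf + c * B) + Bξ + (KP * |τ| / m + B0) + (KP * |τ| / m + B1)) =
    K * (Bf + Bξ + B0 + B1 + 3 * KP / m * |τ|) + 2 * K * c * B / 2 := by ring
  rw [e]
  linarith

theorem comp_left (C : Cut a b W τ) {s : ℝ} (hs : s ≤ W - 1) {x y : WA} (h : WEq (Icc a s) x y)
    (hx : ∀ k, ∀ w ∈ Icc s (W + τ), x.co k w = 0) (hy : ∀ k, ∀ w ∈ Icc s W, y.co k w = 0) :
    WEq (Icc a W) (comp (phi a W τ) x) y := fun k w hw => by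
  rw [co_comp, phi_of_mem τ hw]
  rcases le_total w s with h1 | h1
  · rw [psi_of_le τ (by linarith)]
    exact h k w ⟨hw.1, h1⟩
  · rw [hy k w ⟨h1, hw.2⟩]
    refine hx k _ ⟨?_, (C.maps hw).2⟩
    rw [← psi_of_le (W := W) (w := s) τ (by linarith)]
    exact (strictMono_psi C.small W).monotone h1

/-- PLIP for collar sources `F J`, `F' J'` supported in `[a, s]`, the same Dirichlet data and pins
and the natural boundary condition -/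
theorem plip0 (C : Cut a b W τ) (S : Sm a b α) {P : Set (Fin 6 → WA)} {ρ : ℤ → ℝ} {K m c s : ℝ}
    (st : Stab a W α P ρ d σ ω K) (hc : 2 * K * c ≤ 1)
    (cont : ContinuousOn σ (Icc a W) ∧ ContinuousOn ω (Icc a W)) (hm : 0 < m)
    (low : ∀ w ∈ Icc a W, m ≤ σ w ∧ m ≤ ω w ∧ m ≤ d w * ω w) (hs : s ≤ W - 1)
    {F : (Fin 6 → WA) → WA} {f' ξ ξ' : WA}
    (h : Sol a W α J (F J) ξ 0) (h' : Sol a (W + τ) α J' f' ξ' 0)
    (hP : J ∈ P) (hP' : pb a W τ (Af α) J' ∈ P)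
    (hJ' : ∀ i, Bd (Icc a (W + τ)) 1 1 (J' i) (1 / 100))
    (hf : WEq (Icc a s) f' (F (pb a W τ (Af α) J')))
    (hf' : ∀ k, ∀ w ∈ Icc s (W + τ), f'.co k w = 0)
    (hF : ∀ k, ∀ w ∈ Icc s W, (F (pb a W τ (Af α) J')).co k w = 0)
    (lip : ∀ B, (∀ i, Bd (Icc a W) σ ω (pb a W τ (Af α) J' i - J i) B) →
      Bd (Icc a W) σ (fun w => d w * ω w) (F (pb a W τ (Af α) J') - F J) (c * B))
    (hξ : ∀ k, ξ'.co k (pt a (W + τ) (-2) k) = ξ.co k (pt a W (-2) k)) (i : Fin 6) :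
    Bd (Icc a W) σ ω (pb a W τ (Af α) J' i - J i) (6 * K * KP / m * |τ|) := by
  have z : ∀ S t, HasD S t 0 0 := fun S t k w _ => by simp
  have z' : Bd {W} σ ω (comp (phi a W τ) 0 - 0) 0 := (Bd.zero _ _ _).congr fun k w _ => by simp
  refine (C.plip S st hc cont hm low (Bf := 0) h (z _ _) h' (z _ _) hP hP' hJ' (fun B hB => ?_)
    (BdX.of_zero fun k => by simp [C.phi_pt, hξ k]) z' z' i).mono (le_of_eq (by ring))
  rw [zero_add]
  exact (lip B hB).congr fun k w hw => by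
    rw [co_sub, co_sub, BoundedContinuousFunction.sub_apply, BoundedContinuousFunction.sub_apply,
      C.comp_left hs hf hf' hF k w hw]

/-- away from the cut the jets themselves are close -/
theorem left (C : Cut a b W τ) {A A' : ℝ → ℂ} {ε B : ℝ} (H : Coef a b A A' ε) {i : Fin 6}
    (h : Bd (Icc a W) σ ω (pb a W τ A J' i - J i) B) : Bd (Icc a (W - 1)) σ ω (J' i - J i) B :=
  (h.subset (Icc_subset_Icc_right (by linarith))).congr fun k w hw => by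
    rw [co_sub, co_sub, BoundedContinuousFunction.sub_apply, BoundedContinuousFunction.sub_apply,
      C.pb_left H J' i k w hw]

/-- `J' ∘ psi` is close to `J` -/
theorem comp_sub (C : Cut a b W τ) {A A' : ℝ → ℂ} {ε B B' : ℝ} (H : Coef a b A A' ε)
    (h1 : ∀ w ∈ Icc a W, σ w ≤ 1 ∧ ω w ≤ 1) (hJ' : ∀ i, Bd (Icc a (W + τ)) 1 1 (J' i) B')
    {i : Fin 6} (h : Bd (Icc a W) σ ω (pb a W τ A J' i - J i) B) :
    Bd (Icc a W) 1 1 (comp (phi a W τ) (J' i) - J i) (B + 5 * (Mchi * |τ|) * B') := by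
  have := (h.weaken' (a' := 1) (b' := 1) (fun w hw => (h1 w hw).1) fun w hw => (h1 w hw).2).sub
    (C.bd_pb_sub H Subset.rfl (fun i => (hJ' i).comp _ C.maps') i)
  rwa [sub_sub_sub_cancel_left] at this

/-- the jets at the cuts are close -/
theorem right (C : Cut a b W τ) {A A' : ℝ → ℂ} {ε B B' : ℝ} (H : Coef a b A A' ε)
    (h1 : ∀ w ∈ Icc a W, σ w ≤ 1 ∧ ω w ≤ 1) (hJ' : ∀ i, Bd (Icc a (W + τ)) 1 1 (J' i) B')
    {i : Fin 6} (h : Bd (Icc a W) σ ω (pb a W τ A J' i - J i) B) :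
    ‖comp (.const ℝ (W + τ)) (J' i) - comp (.const ℝ W) (J i)‖ ≤ B + 5 * (Mchi * |τ|) * B' := by
  have hW := right_mem_Icc.2 C.aW
  refine Bd.norm_le (((C.comp_sub H h1 hJ' h).comp (S' := univ) (.const ℝ W)
    fun _ _ => hW).congr fun k w _ => ?_)
  simp [phi_of_mem τ hW, psi_self]

theorem right_ev (C : Cut a b W τ) {A A' : ℝ → ℂ} {ε B B' : ℝ} (H : Coef a b A A' ε)
    (h1 : ∀ w ∈ Icc a W, σ w ≤ 1 ∧ ω w ≤ 1) (hJ' : ∀ i, Bd (Icc a (W + τ)) 1 1 (J' i) B')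
    {i : Fin 6} (h : Bd (Icc a W) σ ω (pb a W τ A J' i - J i) B) {w : ℝ} (hw : w ∈ Icc a W)
    (θ : ℝ) : ‖(J' i).ev (psi W τ w) θ - (J i).ev w θ‖ ≤ B + 5 * (Mchi * |τ|) * B' := by
  have := (C.comp_sub H h1 hJ' h).ev_le hw zero_le_one le_rfl le_rfl θ
  rwa [mul_one, ev_sub, ev_comp, phi_of_mem τ hw] at this

end Cut
end Vale.Agent.P218PB
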