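import Vale.Agent.P218PB.Psi
import Vale.Agent.P218EN.Lin
import Vale.Agent.P218EN.Ex

/-! Pull-back of jets under the change of variable `psi`. -/

namespace Vale.Agent.P218PB
open Set Filter Topology Complex Vale.Agent.P218EN Vale.Agent.P218EN.WA

theorem log_lip_fwd {E : Type*} [NormedAddCommGroup E] [NormedSpace ℝ E] {f f' : ℝ → E}
    {a b K : ℝ} (hK : 0 < K) (hf : ∀ w ∈ Icc a b, HasDerivWithinAt f (f' w) (Icc a b) w)
    (h : ∀ w ∈ Icc a b, ‖f' w‖ ≤ K * ‖f w‖) {u w : ℝ} (hu : u ∈ Icc a b) (hw : w ∈ Icc a b)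
    (hwu : w ≤ u) (h1 : K * |u - w| ≤ 1) : ‖f u - f w‖ ≤ 2 * K * |u - w| * ‖f w‖ := by
  have hs : Icc w u ⊆ Icc a b := Icc_subset_Icc hw.1 hu.2
  have := norm_le_gronwallBound_of_norm_deriv_right_le (f := fun x => f x - f w) (f' := f')
    (δ := 0) (K := K) (ε := K * ‖f w‖) (a := w) (b := u)
    (fun x hx => ((hf x (hs hx)).continuousWithinAt.mono hs).sub continuousWithinAt_const)
    (fun x hx => (((hf x (hs (Ico_subset_Icc_self hx))).mono hs).sub_const _).mono_of_mem_nhdsWithin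
      (Icc_mem_nhdsGE_of_mem hx)) (by simp)
    (fun x hx => (h x (hs (Ico_subset_Icc_self hx))).trans (by
      rw [← mul_add]
      gcongr
      exact norm_le_norm_sub_add _ _)) u (right_mem_Icc.2 hwu)
  rw [gronwallBound_of_K_ne_0 hK.ne'] at this
  simp only [zero_mul, zero_add, mul_div_cancel_left₀ _ hK.ne'] at this
  rw [abs_of_nonneg (sub_nonneg.2 hwu)] at h1 ⊢
  have h0 : 0 ≤ K * (u - w) := mul_nonneg hK.le (sub_nonneg.2 hwu)
  have h2 := Real.abs_exp_sub_one_le (x := K * (u - w)) (by rwa [abs_of_nonneg h0])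
  rw [abs_of_nonneg h0] at h2
  nlinarith [le_abs_self (Real.exp (K * (u - w)) - 1), norm_nonneg (f w)]

theorem log_lip {E : Type*} [NormedAddCommGroup E] [NormedSpace ℝ E] {f f' : ℝ → E}
    {a b K : ℝ} (hK : 0 < K) (hf : ∀ w ∈ Icc a b, HasDerivWithinAt f (f' w) (Icc a b) w)
    (h : ∀ w ∈ Icc a b, ‖f' w‖ ≤ K * ‖f w‖) {u w : ℝ} (hu : u ∈ Icc a b) (hw : w ∈ Icc a b)
    (h1 : K * |u - w| ≤ 1) : ‖f u - f w‖ ≤ 2 * K * |u - w| * ‖f w‖ := by
  rcases le_total w u with hwu | hwu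
  · exact log_lip_fwd hK hf h hu hw hwu h1
  have hm : MapsTo (fun x : ℝ => -x) (Icc (-b) (-a)) (Icc a b) := fun x hx =>
    ⟨by linarith [hx.2], by linarith [hx.1]⟩
  have e : |-u - -w| = |u - w| := by rw [← abs_neg]; congr 1; ring
  have := log_lip_fwd (f := fun x => f (-x)) (f' := fun x => -f' (-x)) (a := -b) (b := -a) hK
    (fun x hx => by
      simpa [Function.comp_def] using
        (hf _ (hm hx)).scomp x (hasDerivAt_neg x).hasDerivWithinAt hm)
    (fun x hx => by simpa using h _ (hm hx)) (u := -u) (w := -w)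
    ⟨by linarith [hu.2], by linarith [hu.1]⟩ ⟨by linarith [hw.2], by linarith [hw.1]⟩
    (by linarith) (by rwa [e])
  simpa only [neg_neg, e] using this

/-- growth of a positive weight to the right -/
theorem grow_le {f f' : ℝ → ℝ} {a b K : ℝ} (hK : 0 ≤ K)
    (hf : ∀ w ∈ Icc a b, HasDerivWithinAt f (f' w) (Icc a b) w)
    (h : ∀ w ∈ Icc a b, f' w ≤ K * f w) {u w : ℝ} (hu : u ∈ Icc a b) (hw : w ∈ Icc a b)
    (hp : 0 ≤ f w) (hwu : w ≤ u) (h1 : K * |u - w| ≤ 1) : f u ≤ (1 + 2 * K * |u - w|) * f w := by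
  have hs : Icc w u ⊆ Icc a b := Icc_subset_Icc hw.1 hu.2
  have := le_gronwallBound_of_liminf_deriv_right_le (f := f) (f' := f') (δ := f w) (K := K)
    (ε := 0) (a := w) (b := u) (fun x hx => (hf x (hs hx)).continuousWithinAt.mono hs)
    (fun x hx r hr => (((hf x (hs (Ico_subset_Icc_self hx))).mono hs).mono_of_mem_nhdsWithin
      (Icc_mem_nhdsGE_of_mem hx)).liminf_right_slope_le hr) le_rfl
    (fun x hx => by simpa using h x (hs (Ico_subset_Icc_self hx))) u (right_mem_Icc.2 hwu)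
  rw [gronwallBound_ε0] at this
  rw [abs_of_nonneg (sub_nonneg.2 hwu)] at h1 ⊢
  have h0 : 0 ≤ K * (u - w) := mul_nonneg hK (sub_nonneg.2 hwu)
  have h2 := Real.abs_exp_sub_one_le (x := K * (u - w)) (by rwa [abs_of_nonneg h0])
  rw [abs_of_nonneg h0] at h2
  nlinarith [le_abs_self (Real.exp (K * (u - w)) - 1)]

/-- substitution as a ring homomorphism -/
noncomputable def compR (φ : C(ℝ, ℝ)) : WA →+* WA :=
  ⟨⟨⟨comp φ, ev_inj fun w θ => by simp [ev_comp, ev_one]⟩,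
    fun x y => ev_inj fun w θ => by simp [ev_comp, ev_mul]⟩,
    ev_inj fun w θ => by simp [ev_comp, ev_zero], fun x y => ev_inj fun w θ => by
      simp [ev_comp, ev_add]⟩

@[simp] theorem compR_apply (φ : C(ℝ, ℝ)) (x : WA) : compR φ x = comp φ x := rfl

/-- multiplier of `p` -/
noncomputable def m3 (W τ : ℝ) (A : ℝ → ℂ) (w : ℝ) : ℂ := A (psi W τ w) / A w * psi1 W τ w
/-- multiplier of `q` -/
noncomputable def m4 (W τ : ℝ) (A : ℝ → ℂ) (w : ℝ) : ℂ := A (psi W τ w) / A w * psi1 W τ w ^ 2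
/-- multiplier of `p` in `q` -/
noncomputable def m43 (W τ : ℝ) (A : ℝ → ℂ) (w : ℝ) : ℂ := A (psi W τ w) / A w * psi2 W τ w
/-- multiplier of `s` -/
noncomputable def m5 (W τ : ℝ) (A : ℝ → ℂ) (w : ℝ) : ℂ :=
  Complex.sqrt (A (psi W τ w)) / Complex.sqrt (A w) * psi1 W τ w

/-- the jets of `η ∘ psi` on `[a, W]` -/
noncomputable def pb (a W τ : ℝ) (A : ℝ → ℂ) (J : Fin 6 → WA) : Fin 6 → WA :=
  ![comp (phi a W τ) (J 0), comp (phi a W τ) (J 1), comp (phi a W τ) (J 2),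
    sc (mkB a W (m3 W τ A)) * comp (phi a W τ) (J 3),
    sc (mkB a W (m4 W τ A)) * comp (phi a W τ) (J 4) +
      sc (mkB a W (m43 W τ A)) * comp (phi a W τ) (J 3),
    sc (mkB a W (m5 W τ A)) * comp (phi a W τ) (J 5)]

/-- the standing assumptions -/
structure Cut (a b W τ : ℝ) : Prop where
  small : Mchi * |τ| ≤ 1 / 2
  le : a ≤ W - 1
  h1 : W ≤ b
  h2 : W + τ ≤ b

namespace Cut
variable {a b W τ ε w : ℝ} {A A' : ℝ → ℂ} {J : Fin 6 → WA}

theorem aW (C : Cut a b W τ) : a ≤ W := by linarith [C.le]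

theorem aW' (C : Cut a b W τ) : a ≤ W + τ := by
  linarith [C.le, abs_le_half C.small, neg_abs_le τ]

theorem sub1 (C : Cut a b W τ) : Icc a W ⊆ Icc a b := Icc_subset_Icc_right C.h1
theorem sub2 (C : Cut a b W τ) : Icc a (W + τ) ⊆ Icc a b := Icc_subset_Icc_right C.h2

theorem maps (C : Cut a b W τ) : MapsTo (psi W τ) (Icc a W) (Icc a (W + τ)) :=
  mapsTo_psi C.small C.le

theorem maps' (C : Cut a b W τ) : MapsTo (phi a W τ) (Icc a W) (Icc a (W + τ)) :=
  fun w _ => phi_mem C.small C.le w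

theorem tau_le (_ : Cut a b W τ) : |τ| ≤ Mchi * |τ| :=
  le_mul_of_one_le_left (abs_nonneg _) one_le_Mchi

/-- slowly varying functions change little -/
theorem slow (C : Cut a b W τ) {E : Type*} [NormedAddCommGroup E] [NormedSpace ℝ E]
    {f f' : ℝ → E} {K : ℝ} (hK : 0 < K) (hK2 : K ≤ 2)
    (hf : ∀ w ∈ Icc a b, HasDerivWithinAt f (f' w) (Icc a b) w)
    (h : ∀ w ∈ Icc a b, ‖f' w‖ ≤ K * ‖f w‖) (hw : w ∈ Icc a W) :
    ‖f (psi W τ w) - f w‖ ≤ 2 * K * |τ| * ‖f w‖ := by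
  have h1 := abs_psi_sub W τ w
  have h2 := abs_le_half C.small
  refine (log_lip hK hf h (C.sub2 (C.maps hw)) (C.sub1 hw) (by nlinarith)).trans ?_
  gcongr

theorem ne (C : Cut a b W τ) (H : Coef a b A A' ε) (hw : w ∈ Icc a W) :
    A w ≠ 0 ∧ A (psi W τ w) ≠ 0 :=
  ⟨norm_pos_iff.1 (H.A0 (C.sub1 hw)), norm_pos_iff.1 (H.A0 (C.sub2 (C.maps hw)))⟩

theorem sqrt_ne {z : ℂ} (hz : z ≠ 0) : Complex.sqrt z ≠ 0 := fun h => hz (by
  rw [← csqrt_sq z, h]; simp)

theorem ratio (C : Cut a b W τ) (H : Coef a b A A' ε) (hw : w ∈ Icc a W) :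
    ‖A (psi W τ w) / A w - 1‖ ≤ |τ| / 500 := by
  have := C.slow (K := 1 / 1000) (by norm_num) (by norm_num) H.hA
    (fun w hw => by linarith [H.A's hw]) hw
  rw [div_sub_one (C.ne H hw).1, norm_div, div_le_iff₀ (H.A0 (C.sub1 hw))]
  linarith

theorem hasDeriv_sqrt (H : Coef a b A A' ε) (hw : w ∈ Icc a b) :
    HasDerivWithinAt (fun u => Complex.sqrt (A u)) (1 / (2 * Complex.sqrt (A w)) * A' w)
      (Icc a b) w := (hasDerivAt_csqrt (H.re w hw)).comp_hasDerivWithinAt w (H.hA w hw)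

theorem sqrt_slow (C : Cut a b W τ) (H : Coef a b A A' ε) (hw : w ∈ Icc a W) :
    ‖Complex.sqrt (A (psi W τ w)) - Complex.sqrt (A w)‖ ≤ |τ| / 1000 * ‖Complex.sqrt (A w)‖ := by
  have := C.slow (K := 1 / 2000) (by norm_num) (by norm_num)
    (fun w hw => hasDeriv_sqrt H hw) (fun w hw => by
      have h0 := norm_pos_iff.2 (sqrt_ne (norm_pos_iff.1 (H.A0 hw)))
      rw [norm_mul, norm_div, norm_mul, norm_one, Complex.norm_two, div_mul_eq_mul_div,
        div_le_iff₀ (by positivity)]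
      nlinarith [H.A's hw, norm_csqrt_sq (A w)]) hw
  linarith

theorem ratio_sqrt (C : Cut a b W τ) (H : Coef a b A A' ε) (hw : w ∈ Icc a W) :
    ‖Complex.sqrt (A (psi W τ w)) / Complex.sqrt (A w) - 1‖ ≤ |τ| / 500 := by
  have h0 := sqrt_ne (C.ne H hw).1
  rw [div_sub_one h0, norm_div, div_le_iff₀ (norm_pos_iff.2 h0)]
  nlinarith [C.sqrt_slow H hw, abs_nonneg τ, norm_nonneg (Complex.sqrt (A w))]

theorem mult {r : ℂ} {p t : ℝ} (ht : t ≤ 1 / 2) (hr : ‖r - 1‖ ≤ t / 500) (hp : |p - 1| ≤ t) :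
    ‖r * p - 1‖ ≤ 2 * t ∧ ‖r * p ^ 2 - 1‖ ≤ 3 * t ∧ ‖r‖ ≤ 2 := by
  have t0 : 0 ≤ t := (abs_nonneg _).trans hp
  have p1 : ‖(p : ℂ) - 1‖ ≤ t := by rwa [← ofReal_one, ← ofReal_sub, norm_real]
  have p2 : ‖(p : ℂ)‖ ≤ 3 / 2 := by
    have := norm_le_norm_sub_add (p : ℂ) 1
    rw [norm_one] at this
    linarith
  have p3 : ‖(p : ℂ) + 1‖ ≤ 5 / 2 := by
    have := norm_add_le (p : ℂ) 1
    rw [norm_one] at this
    linarith
  refine ⟨?_, ?_, ?_⟩
  · rw [show r * p - 1 = (r - 1) * p + (p - 1) by ring]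
    refine (norm_add_le _ _).trans ?_
    rw [norm_mul]
    have : ‖r - 1‖ * ‖(p : ℂ)‖ ≤ t / 500 * (3 / 2) := by gcongr
    linarith
  · rw [show r * p ^ 2 - 1 = (r - 1) * p ^ 2 + (p - 1) * (p + 1) by ring]
    refine (norm_add_le _ _).trans ?_
    rw [norm_mul, norm_mul, norm_pow]
    have h1 : ‖r - 1‖ * ‖(p : ℂ)‖ ^ 2 ≤ t / 500 * (3 / 2) ^ 2 := by gcongr
    have h2 : ‖(p : ℂ) - 1‖ * ‖(p : ℂ) + 1‖ ≤ t * (5 / 2) := by gcongr
    linarith
  · have := norm_le_norm_sub_add r 1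
    rw [norm_one] at this
    linarith

theorem m_le (C : Cut a b W τ) (H : Coef a b A A' ε) (hw : w ∈ Icc a W) :
    ‖m3 W τ A w - 1‖ ≤ 2 * (Mchi * |τ|) ∧ ‖m4 W τ A w - 1‖ ≤ 3 * (Mchi * |τ|) ∧
      ‖m43 W τ A w‖ ≤ 2 * (Mchi * |τ|) ∧ ‖m5 W τ A w - 1‖ ≤ 2 * (Mchi * |τ|) := by
  have h1 := mult C.small ((C.ratio H hw).trans (by linarith [C.tau_le])) (abs_psi1_sub W τ w)
  have h2 := mult C.small ((C.ratio_sqrt H hw).trans (by linarith [C.tau_le]))
    (abs_psi1_sub W τ w)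
  refine ⟨h1.1, h1.2.1, ?_, h2.1⟩
  rw [m43, norm_mul, norm_real, Real.norm_eq_abs]
  exact mul_le_mul h1.2.2 (abs_psi2 W τ w) (abs_nonneg _) zero_le_two

theorem m_cont (C : Cut a b W τ) (H : Coef a b A A' ε) :
    ContinuousOn (m3 W τ A) (Icc a W) ∧ ContinuousOn (m4 W τ A) (Icc a W) ∧
      ContinuousOn (m43 W τ A) (Icc a W) ∧ ContinuousOn (m5 W τ A) (Icc a W) := by
  have hm : MapsTo (psi W τ) (Icc a W) (Icc a b) := fun w hw => C.sub2 (C.maps hw)
  have c1 := (H.cA.comp (psi W τ).continuous.continuousOn hm).div (H.cA.mono C.sub1)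
    fun w hw => (C.ne H hw).1
  have s1 : ContinuousOn (fun u => Complex.sqrt (A u)) (Icc a b) := fun w hw =>
    (hasDeriv_sqrt H hw).continuousWithinAt
  have c2 := (s1.comp (psi W τ).continuous.continuousOn hm).div (s1.mono C.sub1)
    fun w hw => sqrt_ne (C.ne H hw).1
  have p1 := (continuous_ofReal.comp (continuous_psi1 W τ)).continuousOn (s := Icc a W)
  have p2 := (continuous_ofReal.comp (continuous_psi2 W τ)).continuousOn (s := Icc a W)
  exact ⟨c1.mul p1, c1.mul (p1.pow 2), c1.mul p2, c2.mul p1⟩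

/-- the coefficients of the pull-back -/
theorem co_pb (C : Cut a b W τ) (H : Coef a b A A' ε) (J : Fin 6 → WA) (k : ℤ)
    (hw : w ∈ Icc a W) :
    (pb a W τ A J 0).co k w = (J 0).co k (psi W τ w) ∧
    (pb a W τ A J 1).co k w = (J 1).co k (psi W τ w) ∧
    (pb a W τ A J 2).co k w = (J 2).co k (psi W τ w) ∧
    (pb a W τ A J 3).co k w = m3 W τ A w * (J 3).co k (psi W τ w) ∧
    (pb a W τ A J 4).co k w =
      m4 W τ A w * (J 4).co k (psi W τ w) + m43 W τ A w * (J 3).co k (psi W τ w) ∧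
    (pb a W τ A J 5).co k w = m5 W τ A w * (J 5).co k (psi W τ w) := by
  obtain ⟨c3, c4, c43, c5⟩ := C.m_cont H
  simp [pb, co_sc_mul, phi_of_mem τ hw, mkB_of_mem c3 hw, mkB_of_mem c4 hw, mkB_of_mem c43 hw,
    mkB_of_mem c5 hw]

/-- the pull-back is clamped -/
theorem pb_cl (C : Cut a b W τ) (H : Coef a b A A' ε) (J : Fin 6 → WA) (i : Fin 6) :
    comp (cl a W) (pb a W τ A J i) = pb a W τ A J i := by
  obtain ⟨c3, c4, c43, c5⟩ := C.m_cont H
  refine ext'' fun k w => ?_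
  fin_cases i <;> simp [pb, co_sc_mul, phi_cl C.aW, mkB_apply C.aW c3, mkB_apply C.aW c4,
    mkB_apply C.aW c43, mkB_apply C.aW c5, cl_cl C.aW]

/-- chain rule for jets -/
theorem jet (C : Cut a b W τ) (H : Coef a b A A' ε) (h : Jet a (W + τ) A J) :
    Jet a W A (pb a W τ A J) := by
  have e3 : ∀ k, ∀ w ∈ Icc a W, A w * (pb a W τ A J 3).co k w =
      psi1 W τ w * (A (psi W τ w) * (J 3).co k (psi W τ w)) := fun k w hw => by
    rw [(C.co_pb H J k hw).2.2.2.1, m3]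
    field_simp [(C.ne H hw).1]
  refine ⟨fun k w hw => ?_, fun k w hw => ?_, fun k w hw => ?_, fun k w hw => ?_,
    fun k w hw => ?_⟩
  · rw [e3 k w hw]
    exact (hasDeriv_comp C.small C.le (h.d0 k _ (C.maps hw))).congr
      (fun u hu => (C.co_pb H J k hu).1) (C.co_pb H J k hw).1
  · refine (((hasDeriv_psi1C W τ w _).mul (hasDeriv_comp C.small C.le
      (h.d3 k _ (C.maps hw)))).congr (e3 k) (e3 k w hw)).congr_deriv ?_
    rw [(C.co_pb H J k hw).2.2.2.2.1, m4, m43]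
    field_simp [(C.ne H hw).1]
    ring
  · rw [(C.co_pb H J k hw).1, (C.co_pb H J k hw).2.1]
    exact h.t1 k _ (C.maps hw)
  · rw [(C.co_pb H J k hw).2.1, (C.co_pb H J k hw).2.2.1]
    exact h.t2 k _ (C.maps hw)
  · rw [(C.co_pb H J k hw).2.2.2.1, (C.co_pb H J k hw).2.2.2.2.2, h.t5 k _ (C.maps hw), m5, m3]
    beta_reduce
    have h1 := csqrt_sq (A w)
    have h2 := csqrt_sq (A (psi W τ w))
    have h3 := sqrt_ne (C.ne H hw).1
    generalize Complex.sqrt (A w) = x at *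
    generalize Complex.sqrt (A (psi W τ w)) = y at *
    rw [← h1, ← h2]
    field_simp

/-- nothing changes on the left -/
theorem pb_left (C : Cut a b W τ) (H : Coef a b A A' ε) (J : Fin 6 → WA) (i : Fin 6) :
    WEq (Icc a (W - 1)) (pb a W τ A J i) (J i) := fun k w hw => by
  have hw' : w ∈ Icc a W := ⟨hw.1, by linarith [hw.2]⟩
  have h := C.co_pb H J k hw'
  have h0 := (C.ne H hw').1
  have hl : w < W - 3 / 4 := by linarith [hw.2]
  simp only [m3, m4, m43, m5, psi_of_le τ hl.le, psi1_of_lt τ hl, psi2_of_lt τ hl, div_self h0,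
    div_self (sqrt_ne h0), ofReal_one, ofReal_zero, one_pow, mul_one, one_mul, mul_zero, zero_mul,
    add_zero] at h
  fin_cases i
  exacts [h.1, h.2.1, h.2.2.1, h.2.2.2.1, h.2.2.2.2.1, h.2.2.2.2.2]

/-- the values at the cut -/
theorem pb_right (C : Cut a b W τ) (H : Coef a b A A' ε) (J : Fin 6 → WA) (k : ℤ) :
    (pb a W τ A J 0).co k W = (J 0).co k (W + τ) ∧
    (pb a W τ A J 1).co k W = (J 1).co k (W + τ) ∧
    (pb a W τ A J 2).co k W = (J 2).co k (W + τ) ∧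
    (pb a W τ A J 3).co k W = A (W + τ) / A W * (J 3).co k (W + τ) ∧
    (pb a W τ A J 4).co k W = A (W + τ) / A W * (J 4).co k (W + τ) ∧
    (pb a W τ A J 5).co k W =
      Complex.sqrt (A (W + τ)) / Complex.sqrt (A W) * (J 5).co k (W + τ) := by
  simpa [m3, m4, m43, m5, psi_self, psi1_self, psi2_self] using
    C.co_pb H J k (right_mem_Icc.2 C.aW)

section
variable {σ ω : ℝ → ℝ} {l B : ℝ}

theorem bd_comp (C : Cut a b W τ) (hl : 0 ≤ l) (hσ : ∀ w ∈ Icc a W, σ (psi W τ w) ≤ l * σ w)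
    (hω : ∀ w ∈ Icc a W, ω (psi W τ w) ≤ l * ω w) {x : WA} (h : Bd (Icc a (W + τ)) σ ω x B) :
    Bd (Icc a W) σ ω (comp (phi a W τ) x) (l * B) :=
  (h.comp _ C.maps').weaken hl (fun w hw => by simpa [phi_of_mem τ hw] using hσ w hw)
    fun w hw => by simpa [phi_of_mem τ hw] using hω w hw

theorem bd_mul {S : Set ℝ} {x y : WA} {m : ℝ → ℂ} {t : ℝ} (ht : 0 ≤ t) (h : Bd S σ ω x B)
    (hm : ∀ w ∈ S, ‖m w‖ ≤ t) (hy : ∀ k, ∀ w ∈ S, y.co k w = m w * x.co k w) :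
    Bd S σ ω y (t * B) :=
  h.of_le ht fun k w hw c _ hx => by
    rw [hy k w hw, norm_mul, mul_assoc]
    exact mul_le_mul (hm w hw) hx (norm_nonneg _) ht

/-- `pb J - J ∘ psi = O(τ)` in any weights -/
theorem bd_pb_sub (C : Cut a b W τ) (H : Coef a b A A' ε) {S : Set ℝ} (hS : S ⊆ Icc a W)
    (h : ∀ i, Bd S σ ω (comp (phi a W τ) (J i)) B) (i : Fin 6) :
    Bd S σ ω (pb a W τ A J i - comp (phi a W τ) (J i)) (5 * (Mchi * |τ|) * B) := by
  obtain ⟨c3, c4, c43, c5⟩ := C.m_cont H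
  have B0 := (h 0).nonneg
  have t0 : 0 ≤ Mchi * |τ| := (abs_nonneg _).trans C.tau_le
  have tB := mul_nonneg t0 B0
  have z : Bd S σ ω 0 (5 * (Mchi * |τ|) * B) := (Bd.zero _ _ _).mono (by positivity)
  fin_cases i
  · simpa [pb] using z
  · simpa [pb] using z
  · simpa [pb] using z
  · refine (bd_mul (m := fun w => m3 W τ A w - 1) (by positivity) (h 3)
      (fun w hw => (C.m_le H (hS hw)).1) fun k w hw => ?_).mono (by linarith)
    simp [pb, co_sc_mul, mkB_of_mem c3 (hS hw), sub_mul]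
  · have h1 := bd_mul (m := fun w => m4 W τ A w - 1) (by positivity) (h 4)
      (fun w hw => (C.m_le H (hS hw)).2.1)
      (y := sc (mkB a W (m4 W τ A)) * comp (phi a W τ) (J 4) - comp (phi a W τ) (J 4))
      fun k w hw => by simp [co_sc_mul, mkB_of_mem c4 (hS hw), sub_mul]
    have h2 := bd_mul (m := m43 W τ A) (by positivity) (h 3)
      (fun w hw => (C.m_le H (hS hw)).2.2.1)
      (y := sc (mkB a W (m43 W τ A)) * comp (phi a W τ) (J 3))
      fun k w hw => by simp [co_sc_mul, mkB_of_mem c43 (hS hw)]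
    refine ((h1.add h2).mono (by linarith)).congr fun k w _ => ?_
    simp [pb]
    ring
  · refine (bd_mul (m := fun w => m5 W τ A w - 1) (by positivity) (h 5)
      (fun w hw => (C.m_le H (hS hw)).2.2.2) fun k w hw => ?_).mono (by linarith)
    simp [pb, co_sc_mul, mkB_of_mem c5 (hS hw), sub_mul]

theorem bd_pb (C : Cut a b W τ) (H : Coef a b A A' ε) {S : Set ℝ} (hS : S ⊆ Icc a W)
    (h : ∀ i, Bd S σ ω (comp (phi a W τ) (J i)) B) (i : Fin 6) :
    Bd S σ ω (pb a W τ A J i) ((1 + 5 * (Mchi * |τ|)) * B) := by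
  have := (h i).add (C.bd_pb_sub H hS h i)
  rw [add_sub_cancel] at this
  exact this.mono (by linarith)

end

/-- admissible weights change little: modes `k ≠ 0` -/
theorem admO (C : Cut a b W τ) (H : Coef a b A A' ε) {ω ω' : ℝ → ℝ} (O : AdmO a b A ω ω')
    (hw : w ∈ Icc a W) : ω (psi W τ w) ≤ (1 + |τ|) * ω w := by
  have := C.slow (K := 1 / 2) (by norm_num) (by norm_num) O.hd (fun u hu => by
    have h1 := (re_le_norm _).trans (H.As hu)
    have h2 := H.re u hu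
    have h3 := O.pos u hu
    rw [Real.norm_eq_abs, Real.norm_of_nonneg h3.le, abs_le]
    constructor <;> nlinarith [O.lo u hu, O.up u hu]) hw
  rw [Real.norm_eq_abs, Real.norm_of_nonneg (O.pos w (C.sub1 hw)).le] at this
  linarith [le_abs_self (ω (psi W τ w) - ω w)]

/-- admissible weights change little: mode `0`, larger cut -/
theorem admS (C : Cut a b W τ) (H : Coef a b A A' ε) {σ σ' : ℝ → ℝ} (O : AdmS a b A σ σ')
    (hτ : 0 ≤ τ) (hw : w ∈ Icc a W) : σ (psi W τ w) ≤ (1 + |τ|) * σ w := by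
  have h1 := abs_psi_sub W τ w
  have h2 := abs_le_half C.small
  have h3 := O.pos w (C.sub1 hw)
  refine (grow_le (K := 1 / 2) (by norm_num) O.hd (fun u hu => ?_) (C.sub2 (C.maps hw))
    (C.sub1 hw) h3.le ?_ (by linarith)).trans (by nlinarith)
  · have h1 := (re_le_norm _).trans (H.As hu)
    nlinarith [O.up u hu, O.pos u hu, norm_nonneg (A u)]
  · rw [psi_apply]
    nlinarith [chi_nonneg (w - W)]

end Cut
end Vale.Agent.P218PB
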