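import Vale.Agent.P218PB.PLip
import Vale.Agent.P218EN.Cyl

/-! The standard weights: lower bounds, slow variation; Lipschitz constants of sources. -/

namespace Vale.Agent.P218PB
open Set Complex Metric Vale.Agent.P218EN Vale.Agent.P218EN.WA

/-- a holomorphic source which is bounded on the ball of radius `ρ` of a class is Lipschitz on the
ball of radius `ρ / 2` -/
theorem lip_of_holo {a b M r B ρ : ℝ} {σ ω σ' ω' : ℝ → ℝ} (hab : a ≤ b) (hρ : 0 < ρ)
    (hp : ∀ w ∈ Icc a b, 0 < σ' w ∧ 0 < ω' w)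
    (hc : ContinuousOn σ' (Icc a b) ∧ ContinuousOn ω' (Icc a b)) {ε : ℝ} (e0 : 0 ≤ ε)
    (hr : ε * ρ < r) (hε : ∀ w ∈ Icc a b, σ w ≤ ε ∧ ω w ≤ ε) {F : (Fin 6 → WA) → WA}
    (hF : DifferentiableOn ℂ F (ball 0 r))
    (bF : ∀ J, Clamp a b J → (∀ i, Bd (Icc a b) σ ω (J i) ρ) → Bd (Icc a b) σ' ω' (F J) M)
    {J J' : Fin 6 → WA} (c1 : Clamp a b J) (c2 : Clamp a b J')
    (h1 : ∀ i, Bd (Icc a b) σ ω (J i) (ρ / 2)) (h2 : ∀ i, Bd (Icc a b) σ ω (J' i) ρ)
    (h : ∀ i, Bd (Icc a b) σ ω (J' i - J i) B) :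
    Bd (Icc a b) σ' ω' (F J' - F J) (4 * M / ρ * B) := by
  have b1 := bF J c1 fun i => (h1 i).mono (by linarith)
  have M0 := b1.nonneg
  rcases le_or_gt (ρ / 2) B with hB | hB
  · refine ((bF J' c2 h2).sub b1).mono ?_
    rw [div_mul_eq_mul_div, le_div_iff₀ hρ]
    nlinarith
  obtain ⟨T, hT⟩ := exists_T hab hp hc
  have key : ∀ R : ℝ, 1 < R → R * B ≤ ρ / 2 → ‖T (F J' - F J)‖ ≤ 2 * M / R := fun R R1 R2 => by
    have hz : ∀ z ∈ ball (0 : ℂ) R, Clamp a b (J + z • (J' - J)) ∧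
        ∀ i, Bd (Icc a b) σ ω ((J + z • (J' - J)) i) ρ := fun z hz => by
      refine ⟨fun i => ?_, fun i => ((h1 i).add ((h i).smul z)).mono ?_⟩
      · have e1 : compL (cl a b) (J i) = J i := c1 i
        have e2 : compL (cl a b) (J' i) = J' i := c2 i
        simp only [Pi.add_apply, Pi.smul_apply, Pi.sub_apply, ← compL_apply, map_add, map_smul,
          map_sub, e1, e2]
      · nlinarith [mem_ball_zero_iff.1 hz, (h i).nonneg]
    have hm : MapsTo (fun z : ℂ => J + z • (J' - J)) (ball 0 R) (ball 0 r) := fun z z1 => by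
      rw [mem_ball_zero_iff]
      refine lt_of_le_of_lt ((pi_norm_le_iff_of_nonneg (mul_nonneg e0 hρ.le)).2 fun i => ?_) hr
      beta_reduce
      rw [← (hz z z1).1 i]
      exact Bd.norm_comp_cl_le hab ((((hz z z1).2 i).weaken (a' := 1) (b' := 1) e0
        (fun w hw => by simpa using (hε w hw).1) fun w hw => by simpa using (hε w hw).2))
        fun _ _ => ⟨le_rfl, le_rfl⟩
    have := lip_le (f := fun z : ℂ => T (F (J + z • (J' - J)))) (M := M) (z := 1)
      (T.differentiable.comp_differentiableOn (hF.comp (by fun_prop) hm))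
      (fun z z1 => (hT _ _).2 (bF _ (hz z z1).1 (hz z z1).2)) (by simpa using R1)
    simpa [map_sub] using this
  refine (hT _ _).1 ?_
  rcases (h 0).nonneg.eq_or_lt with h0 | h0
  · rw [← h0, mul_zero]
    refine le_of_forall_pos_le_add fun η hη => (key (1 + 1 + 2 * M / η) (by
      have : 0 ≤ 2 * M / η := by positivity
      linarith) (by rw [← h0]; linarith)).trans ?_
    rw [zero_add, div_le_iff₀ (by positivity)]
    have : η * (2 * M / η) = 2 * M := by field_simp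
    nlinarith
  · refine (key (ρ / (2 * B)) (by rw [lt_div_iff₀ (by positivity)]; linarith)
      (le_of_eq (by field_simp))).trans (le_of_eq (by field_simp; ring))

section
variable {a0 a b w : ℝ} {α : ℂ}

theorem pt_le_ep (p : Pt a0 α w) : sg a0 α w ≤ ep a0 ∧ om a0 α w ≤ ep a0 := by
  have := p.om_add_le
  have := p.mu_pos
  refine ⟨?_, by linarith⟩
  exact (mul_le_of_le_one_left (add_pos p.om_pos p.mu_pos).le p.dl_le).trans p.om_add_le

theorem ep_le (h : Rg a0 a b α) : ep a0 ≤ 1 / 1000 := by linarith [h.ep_small]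

/-- polynomial lower bounds -/
theorem pt_low (p : Pt a0 α w) : 1 / w ≤ dl (Af α) w ∧ 1 / w ^ 2 ≤ om a0 α w ∧
    1 / w ^ 3 ≤ dl (Af α) w * om a0 α w ∧ dl (Af α) w * om a0 α w ≤ sg a0 α w := by
  have w0 := p.w_pos
  have w1 := p.le
  have big := p.big
  have n0 := p.n_pos
  have r : 8 / w ≤ (1 - α * w).re := by
    rw [div_le_iff₀ w0]
    linarith [p.re_ge]
  have h1 : 1 / w ≤ dl (Af α) w := by
    rw [p.dl_eq, le_div_iff₀ n0]
    calc _ ≤ 1 / w * 8 := by gcongr; exact p.n_le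
      _ = 8 / w := by field_simp
      _ ≤ _ := r
  have h2 : 1 / w ^ 2 ≤ om a0 α w := by
    have k1 : 1 / w ^ 2 ≤ tau α w := by
      rw [p.tau_eq, le_div_iff₀ w0]
      calc _ = 1 / w := by field_simp
        _ ≤ 8 / w := by gcongr; norm_num
        _ ≤ _ := r.trans (re_le_norm _)
    have k2 : 1 / w ^ 2 ≤ (1 / w ^ 2) ^ (7 / 8 : ℝ) :=
      Real.self_le_rpow_of_le_one (by positivity)
        (by rw [div_le_one (by positivity)]; nlinarith) (by norm_num)
    have k3 : (1 / w ^ 2) ^ (7 / 8 : ℝ) ≤ tau α w ^ (7 / 8 : ℝ) :=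
      Real.rpow_le_rpow (by positivity) k1 (by norm_num)
    have k4 : 1 ≤ (√a0)⁻¹ * a0 ^ (7 / 8 : ℝ) := by
      rw [← div_eq_inv_mul, one_le_div p.s_pos, Real.sqrt_eq_rpow]
      exact Real.rpow_le_rpow_of_exponent_le (by linarith) (by norm_num)
    rw [om, Real.mul_rpow (y := tau α w) p.a0_pos.le (norm_nonneg _), ← mul_assoc]
    exact (k2.trans k3).trans (le_mul_of_one_le_left (Real.rpow_pos_of_pos p.tau_pos _).le k4)
  refine ⟨h1, h2, le_trans (le_of_eq ?_) (mul_le_mul h1 h2 (by positivity) p.dl_pos.le),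
    mul_le_mul_of_nonneg_left (le_add_of_nonneg_right p.mu_pos.le) p.dl_pos.le⟩
  field_simp

theorem rg_low (h : Rg a0 a b α) (hw : w ∈ Icc a b) : 1 / b ^ 3 ≤ sg a0 α w ∧
    1 / b ^ 3 ≤ om a0 α w ∧ 1 / b ^ 3 ≤ dl (Af α) w * om a0 α w := by
  have p := h.pt hw
  have w0 := p.w_pos
  have h1 : 1 / b ^ 3 ≤ dl (Af α) w * om a0 α w :=
    le_trans (by gcongr; exact hw.2) (pt_low p).2.2.1
  exact ⟨h1.trans (pt_low p).2.2.2, h1.trans (mul_le_of_le_one_left p.om_pos.le p.dl_le), h1⟩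

theorem sg_slow (h : Rg a0 a b α) : ∃ σ' : ℝ → ℝ, ∀ w ∈ Icc a b,
    HasDerivWithinAt (sg a0 α) (σ' w) (Icc a b) w ∧ ‖σ' w‖ ≤ 1 / 2 * ‖sg a0 α w‖ := by
  refine ⟨_, fun w hw => ⟨(h.hasDeriv_dl hw).fun_mul ((h.admO_om.hd w hw).fun_add
    (h.pt hw).hasDerivAt_mu.hasDerivWithinAt), ?_⟩⟩
  have p := h.pt hw
  have f1 := p.re_Af_pos
  have f2 := h.re_le_mu hw
  have f3 : mu α w ^ 2 ≤ 1 / 1000 := by nlinarith [p.mu_small, p.mu_pos]
  have f4 := p.om_pos
  have f5 := p.mu_pos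
  have f6 := p.re_pos
  have f7 := (re_le_norm _).trans p.n_le
  have d0 := p.dl_pos
  rw [Real.norm_of_nonneg p.sg_pos.le, Real.norm_eq_abs, sg]
  set x := (Af α w).re
  set y := mu α w ^ 2
  set o := om a0 α w
  set s := mu α w
  set R := (1 - α * w).re
  have e1 : |(2 * x - 2 * y) * (o + s) + (-2 * (7 / 8) * x * o + (1 - 2 * R) * y * s)| ≤
      1 / 2 * (o + s) := by
    have y0 := f1.trans_le f2
    have p1 : R * y ≤ 8 / 1000 := by nlinarith
    have p2 := mul_pos f6 y0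
    rw [abs_le]
    constructor <;> nlinarith
  have := mul_le_mul_of_nonneg_left e1 d0.le
  rw [← abs_of_pos d0, ← abs_mul, abs_of_pos d0] at this
  refine (le_of_eq ?_).trans (this.trans (le_of_eq (by ring)))
  congr 1; ring

theorem sm_of_rg (h : Rg a0 a b α) : Sm a b α :=
  ⟨by linarith [h.big, h.le0], ⟨_, _, h.coef⟩, fun w hw => by
    linarith [(h.pt hw).ef_le_om, (pt_le_ep (h.pt hw)).2, ep_le h]⟩

theorem unw (h : Rg a0 a b α) {S : Set ℝ} (hS : S ⊆ Icc a b) {x : WA} {B : ℝ}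
    (hx : Bd S (sg a0 α) (om a0 α) x B) : Bd S 1 1 x (ep a0 * B) :=
  hx.weaken h.ep_pos.le (fun w hw => by simpa using (pt_le_ep (h.pt (hS hw))).1)
    fun w hw => by simpa using (pt_le_ep (h.pt (hS hw))).2

variable {W τ : ℝ}

theorem Cut.sg_le (C : Cut a b W τ) (h : Rg a0 a b α) (hw : w ∈ Icc a W) :
    sg a0 α (psi W τ w) ≤ (1 + |τ|) * sg a0 α w := by
  obtain ⟨σ', hσ⟩ := sg_slow h
  have := C.slow (K := 1 / 2) (by norm_num) (by norm_num) (fun w hw => (hσ w hw).1)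
    (fun w hw => (hσ w hw).2) hw
  rw [Real.norm_eq_abs, Real.norm_of_nonneg (h.pt (C.sub1 hw)).sg_pos.le] at this
  linarith [le_abs_self (sg a0 α (psi W τ w) - sg a0 α w)]

/-- the pull-back at most doubles the norm in the standard class -/
theorem Cut.ball_std (C : Cut a b W τ) (h : Rg a0 a b α) (hτ : Mchi * |τ| ≤ 1 / 20)
    {J : Fin 6 → WA} {B : ℝ} (hJ : ∀ i, Bd (Icc a (W + τ)) (sg a0 α) (om a0 α) (J i) B)
    (i : Fin 6) : Bd (Icc a W) (sg a0 α) (om a0 α) (pb a W τ (Af α) J i) (2 * B) := by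
  have := abs_le_half C.small
  refine C.ball h.coef hτ (fun w hw => (C.sg_le h hw).trans ?_)
    (fun w hw => (C.admO h.coef h.admO_om hw).trans ?_) hJ i
  · nlinarith [(h.pt (C.sub1 hw)).sg_pos]
  · nlinarith [(h.pt (C.sub1 hw)).om_pos]

end

end Vale.Agent.P218PB
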